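import Vale.Agent.P141.H235.Num1b
import Vale.Agent.P141.H483.QSh

/-!
# P141, line (A), flow part: the numbers of the moving stack, a family in `x₀`

* `cross_pt` : the nodes on a plane as points `(x, z)`;
* `num_sum` : `Sk1.Num` of every `x₀` from sums over `x₀`, with one summed number.
-/

namespace Vale.Agent.P141.H811

open Finset Matrix Vale.Agent.P141.PL Vale.Agent.P141.H103
open Vale.Agent.P141.H235.S1
open Vale.Agent.P141.H389 Vale.Agent.P141.H505.Sk1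
open Vale.Agent.P075

noncomputable section

open scoped Classical

theorem plane_swap (A B : Finset ℤ) (d : ℤ) (g : ℤ → ℤ → ℝ) :
    ∑ n ∈ A, (if d - n ∈ B then g n (d - n) else 0) =
      ∑ n' ∈ B, (if d - n' ∈ A then g (d - n') n' else 0) := by
  have h1 : ∀ n ∈ A, (if d - n ∈ B then g n (d - n) else 0) =
      ∑ n' ∈ B, (if n + n' = d then g n n' else 0) := by
    intro n _
    rw [← Finset.sum_ite_eq' B (d - n) fun n' => g n n']
    refine sum_congr rfl fun n' _ => if_congr ?_ rfl rfl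
    constructor <;> intro h <;> linarith
  have h2 : ∀ n' ∈ B, (if d - n' ∈ A then g (d - n') n' else 0) =
      ∑ n ∈ A, (if n + n' = d then g n n' else 0) := by
    intro n' _
    rw [← Finset.sum_ite_eq' A (d - n') fun n => g n n']
    refine sum_congr rfl fun n _ => if_congr ?_ rfl rfl
    constructor <;> intro h <;> linarith
  rw [sum_congr rfl h1, sum_congr rfl h2, sum_comm]

/-- **The nodes as points.** -/
theorem cross_pt {N : ℕ} (r1 r2 r3 : ℤ) {k : ℕ} (hk : k ≤ N) (p : ℤ) (P : ℤ → ℤ → ℤ → Prop)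
    [∀ a b c, Decidable (P a b c)] (f : ℤ → ℤ → ℝ) :
    GW N r2 r3 r1 k p (fun n2 n1 m => if P n2 n1 m then mW f k k n1 m else 0) =
      ∑ x ∈ iv N r1, ∑ z ∈ iv N r3, (if p - ix k z - ix k x ∈ iv (N - k) r2 ∧
        P (p - ix k z - ix k x) (ix k x) (ix k z) then f x z else 0) := by
  have e1 : ∑ x ∈ iv N r1, ∑ z ∈ iv N r3, (if p - ix k z - ix k x ∈ iv (N - k) r2 ∧
        P (p - ix k z - ix k x) (ix k x) (ix k z) then f x z else 0) =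
      ∑ m ∈ iv (N - k) r3, ∑ n1 ∈ iv (N - k) r1, ∑ x ∈ iv k n1, ∑ z ∈ iv k m,
        (if p - m - n1 ∈ iv (N - k) r2 ∧ P (p - m - n1) n1 m then f x z else 0) := by
    have i1 : ∀ x ∈ iv N r1, ∑ z ∈ iv N r3, (if p - ix k z - ix k x ∈ iv (N - k) r2 ∧
        P (p - ix k z - ix k x) (ix k x) (ix k z) then f x z else 0) =
        ∑ m ∈ iv (N - k) r3, ∑ z ∈ iv k m, (if p - m - ix k x ∈ iv (N - k) r2 ∧
          P (p - m - ix k x) (ix k x) m then f x z else 0) := by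
      intro x _
      rw [← PL.H804.iv_sum hk r3]
      refine sum_congr rfl fun m _ => sum_congr rfl fun z hz => ?_
      rw [mem_iv.1 hz]
    rw [sum_congr rfl i1, sum_comm]
    refine sum_congr rfl fun m _ => ?_
    rw [← PL.H804.iv_sum hk r1]
    refine sum_congr rfl fun n1 _ => sum_congr rfl fun x hx => sum_congr rfl fun z _ => ?_
    rw [mem_iv.1 hx]
  rw [e1]
  unfold H103.GW
  rw [mul_sum]
  refine sum_congr rfl fun m _ => ?_
  rw [plane_swap _ _ (p - m) fun n n' => if P n n' m then mW f k k n' m else 0, mul_sum]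
  refine sum_congr rfl fun n1 _ => ?_
  by_cases h1 : p - m - n1 ∈ iv (N - k) r2
  · by_cases h2 : P (p - m - n1) n1 m
    · rw [if_pos h1, if_pos h2]
      unfold mW
      have e2 : (4 : ℝ) ^ k = 2 ^ k * 2 ^ k := by
        rw [← mul_pow]
        norm_num
      rw [e2, ← mul_assoc, mul_inv_cancel₀ (by positivity), one_mul]
      refine sum_congr rfl fun x _ => sum_congr rfl fun z _ => ?_
      rw [if_pos ⟨h1, h2⟩]
    · rw [if_pos h1, if_neg h2, mul_zero]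
      symm
      refine sum_eq_zero fun x _ => sum_eq_zero fun z _ => ?_
      rw [if_neg fun h => h2 h.2]
  · rw [if_neg h1, mul_zero]
    symm
    refine sum_eq_zero fun x _ => sum_eq_zero fun z _ => ?_
    rw [if_neg fun h => h1 h.1]

variable {κ : Type} [Fintype κ] [DecidableEq κ]

/-- the nodes where one of the three squares changes, at the point `(x, z)` -/
def Cr (N : ℕ) (r2 : ℤ) (p : ℤ) (A : ℕ → ℤ → ℤ → ℝ) (b c : ℕ → ℤ → ℤ → κ → ℝ) (k : ℕ)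
    (x z : ℤ) : Prop :=
  p - ix k z - ix k x ∈ iv (N - k) r2 ∧ (Ch A k (p - ix k z - ix k x) (ix k z) ∨
    Ch b k (ix k x) (p - ix k z - ix k x) ∨ Ch c k (ix k x) (ix k z))

/-- **The numbers of the stack for every `x₀`.** `MM`, `EE` : mass and energy of the slot at every
scale; the sums over `x₀` of the moves `Xq`, `Xq2`, of the born part `Xbm`, `Xb`, of the part on the
marked nodes `Xcm`, `Xc`. -/
theorem num_sum {X : Finset ℤ} {N : ℕ} {r1 r2 r3 : ℤ} {pl : ℤ → ℕ → ℤ}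
    {A : ℤ → ℕ → ℤ → ℤ → ℝ} {b c : ℤ → ℕ → ℤ → ℤ → κ → ℝ} {β cC : ℝ} (hβ : 0 < β)
    {R D : ℤ → ℤ → ℕ → ℤ → Matrix κ κ ℝ} (h : ∀ x0 ∈ X, Mv N (R x0) (D x0))
    {EE MM : ℤ → ℝ} (hEE : ∀ x0, 0 ≤ EE x0) (hMM : ∀ x0, 0 ≤ MM x0)
    (hM : ∀ x0 ∈ X, ∀ k ≤ N, ∀ j, k ≤ j → j ≤ k + 1 →
      ∑ x ∈ iv N r1, ∑ z ∈ iv N r3, H235.S1.sq (c x0 j x z) ≤ MM x0)
    (hE : ∀ x0 ∈ X, ∀ k ≤ N, ∀ j, k ≤ j → j ≤ k + 1 →
      ∑ x ∈ iv N r1, ∑ z ∈ iv N r3, eR (c x0 j) (R x0) k x z ≤ EE x0)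
    (cap : ∀ x0 ∈ X, ∀ k a n m, k ≤ N → a ≤ N → ∀ j, min k a ≤ j → j ≤ min k a + 1 →
      n ∈ iv (N - a) r1 → m ∈ iv (N - k) r3 →
      (cC ^ 2 • (1 : Matrix (Ix k) (Ix k) ℝ) -
        W3 (c x0 j) (ThF β (R x0)) k a n m).PosSemidef)
    {Xe Xm Xq Xq2 Xb Xbm Xc Xcm : ℝ} (sE : ∑ x0 ∈ X, EE x0 ≤ Xe) (sM : ∑ x0 ∈ X, MM x0 ≤ Xm)
    (s1 : ∑ x0 ∈ X, ∑ k ∈ range N, ∑ x ∈ iv N r1, ∑ z ∈ iv N r3,
      qD (c x0 (k + 1)) (D x0) k x z ≤ Xq)
    (s2 : ∑ x0 ∈ X, ∑ k ∈ range N, ∑ x ∈ iv N r1, ∑ z ∈ iv N r3,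
      qDR (c x0 (k + 1)) (R x0) (D x0) k x z ≤ Xq2)
    (s3 : ∑ x0 ∈ X, ∑ k ∈ range N, ∑ x ∈ iv N r1, ∑ z ∈ iv N r3,
      (if Ch (c x0) k (ix k x) (ix k z) then H235.S1.sq (c x0 (k + 1) x z) else 0) ≤ Xbm)
    (s4 : ∑ x0 ∈ X, ∑ k ∈ range N, ∑ x ∈ iv N r1, ∑ z ∈ iv N r3,
      (if Ch (c x0) k (ix k x) (ix k z) then eR (c x0 (k + 1)) (R x0) k x z else 0) ≤ Xb)
    (s5 : ∑ x0 ∈ X, ∑ k ∈ range N, ∑ x ∈ iv N r1, ∑ z ∈ iv N r3,
      (if Cr N r2 (pl x0 k) (A x0) (b x0) (c x0) k x z then H235.S1.sq (c x0 (k + 1) x z) else 0) ≤ Xcm)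
    (s6 : ∑ x0 ∈ X, ∑ k ∈ range N, ∑ x ∈ iv N r1, ∑ z ∈ iv N r3,
      (if Cr N r2 (pl x0 k) (A x0) (b x0) (c x0) k x z then
        eR (c x0 (k + 1)) (R x0) k x z else 0) ≤ Xc) :
    ∃ En : ℤ → ℝ, (∀ x0, 0 ≤ En x0) ∧ (∀ x0 ∈ X, Num 0 N r1 r2 r3 (pl x0) (A x0) (b x0) (c x0)
      (ThF β (R x0)) (MF (R x0) (D x0)) (fun _ _ _ => 0) (En x0) cC) ∧
      ∑ x0 ∈ X, En x0 ≤ β * (Xm + Xbm + Xcm) + Xe + Xb + Xc + 4 * Xq + 4 * β⁻¹ * Xq2 := by
  have q0 : ∀ v : κ → ℝ, 0 ≤ H235.S1.sq v := sq_nonneg'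
  set a1 : ℤ → ℝ := fun x0 => ∑ k ∈ range N, ∑ x ∈ iv N r1, ∑ z ∈ iv N r3,
      qD (c x0 (k + 1)) (D x0) k x z with ha1
  set a2 : ℤ → ℝ := fun x0 => ∑ k ∈ range N, ∑ x ∈ iv N r1, ∑ z ∈ iv N r3,
      qDR (c x0 (k + 1)) (R x0) (D x0) k x z with ha2
  set a3 : ℤ → ℝ := fun x0 => ∑ k ∈ range N, ∑ x ∈ iv N r1, ∑ z ∈ iv N r3,
      (if Ch (c x0) k (ix k x) (ix k z) then H235.S1.sq (c x0 (k + 1) x z) else 0) with ha3
  set a4 : ℤ → ℝ := fun x0 => ∑ k ∈ range N, ∑ x ∈ iv N r1, ∑ z ∈ iv N r3,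
      (if Ch (c x0) k (ix k x) (ix k z) then eR (c x0 (k + 1)) (R x0) k x z else 0) with ha4
  set a5 : ℤ → ℝ := fun x0 => ∑ k ∈ range N, ∑ x ∈ iv N r1, ∑ z ∈ iv N r3,
      (if Cr N r2 (pl x0 k) (A x0) (b x0) (c x0) k x z then H235.S1.sq (c x0 (k + 1) x z) else 0) with ha5
  set a6 : ℤ → ℝ := fun x0 => ∑ k ∈ range N, ∑ x ∈ iv N r1, ∑ z ∈ iv N r3,
      (if Cr N r2 (pl x0 k) (A x0) (b x0) (c x0) k x z then
        eR (c x0 (k + 1)) (R x0) k x z else 0) with ha6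
  have n1 : ∀ x0, 0 ≤ a1 x0 := fun x0 => sum_nonneg fun k _ => sum_nonneg fun x _ =>
    sum_nonneg fun z _ => q0 _
  have n2 : ∀ x0, 0 ≤ a2 x0 := fun x0 => sum_nonneg fun k _ => sum_nonneg fun x _ =>
    sum_nonneg fun z _ => q0 _
  have n3 : ∀ x0, 0 ≤ a3 x0 := fun x0 => sum_nonneg fun k _ => sum_nonneg fun x _ =>
    sum_nonneg fun z _ => by split_ifs; exacts [q0 _, le_rfl]
  have n4 : ∀ x0, 0 ≤ a4 x0 := fun x0 => sum_nonneg fun k _ => sum_nonneg fun x _ =>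
    sum_nonneg fun z _ => by split_ifs; exacts [q0 _, le_rfl]
  have n5 : ∀ x0, 0 ≤ a5 x0 := fun x0 => sum_nonneg fun k _ => sum_nonneg fun x _ =>
    sum_nonneg fun z _ => by split_ifs; exacts [q0 _, le_rfl]
  have n6 : ∀ x0, 0 ≤ a6 x0 := fun x0 => sum_nonneg fun k _ => sum_nonneg fun x _ =>
    sum_nonneg fun z _ => by split_ifs; exacts [q0 _, le_rfl]
  have hi : 0 ≤ β⁻¹ := (inv_pos.2 hβ).le
  refine ⟨fun x0 => β * (MM x0 + a3 x0 + a5 x0) + EE x0 + a4 x0 + a6 x0 + 4 * a1 x0 +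
    4 * β⁻¹ * a2 x0, fun x0 => ?_, fun x0 hx0 => ?_, ?_⟩
  · have := hEE x0
    have := hMM x0
    have := n1 x0
    have := n2 x0
    have := n3 x0
    have := n4 x0
    have := n5 x0
    have := n6 x0
    positivity
  · have t0 := hEE x0
    have t0' := hMM x0
    have t1 := n1 x0
    have t2 : 0 ≤ 4 * β⁻¹ * a2 x0 := mul_nonneg (by positivity) (n2 x0)
    have t3 : 0 ≤ β * a3 x0 := mul_nonneg hβ.le (n3 x0)
    have t4 := n4 x0
    have t5 : 0 ≤ β * a5 x0 := mul_nonneg hβ.le (n5 x0)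
    have t6 := n6 x0
    have t7 : 0 ≤ β * MM x0 := mul_nonneg hβ.le (hMM x0)
    refine num_TF hβ (h x0 hx0) (by nlinarith) ?_ ?_ ?_ ?_ ?_
    · intro k _ hk j hj hj'
      have u1 := mul_le_mul_of_nonneg_left (hM x0 hx0 k hk j hj hj') hβ.le
      have u2 := hE x0 hx0 k hk j hj hj'
      nlinarith
    · rw [← range_eq_Ico]
      show 4 * a1 x0 + 4 * β⁻¹ * a2 x0 ≤ _
      nlinarith
    · rw [← range_eq_Ico]
      show β * a3 x0 + a4 x0 ≤ _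
      nlinarith
    · rw [← range_eq_Ico]
      have e5 : ∀ f : ℕ → ℤ → ℤ → ℝ, ∑ k ∈ range N, GW N r2 r3 r1 k (pl x0 k) (fun n2 n1 m =>
          if Ch (A x0) k n2 m ∨ Ch (b x0) k n1 n2 ∨ Ch (c x0) k n1 m then
            mW (f k) k k n1 m else 0) =
          ∑ k ∈ range N, ∑ x ∈ iv N r1, ∑ z ∈ iv N r3,
            (if Cr N r2 (pl x0 k) (A x0) (b x0) (c x0) k x z then f k x z else 0) := by
        intro f
        refine sum_congr rfl fun k hk => ?_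
        refine (cross_pt r1 r2 r3 (mem_range.1 hk).le (pl x0 k)
          (fun n2 n1 m => Ch (A x0) k n2 m ∨ Ch (b x0) k n1 n2 ∨ Ch (c x0) k n1 m) (f k)).trans ?_
        exact sum_congr rfl fun x _ => sum_congr rfl fun z _ => if_congr Iff.rfl rfl rfl
      rw [e5 fun k x z => H235.S1.sq (c x0 (k + 1) x z), e5 fun k => eR (c x0 (k + 1)) (R x0) k]
      show β * a5 x0 + a6 x0 ≤ _
      nlinarith
    · intro k a n m _ _ hk ha j hj hj' hn hm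
      exact cap x0 hx0 k a n m hk ha j hj hj' hn hm
  · simp only [sum_add_distrib, ← mul_sum]
    have u1 := mul_le_mul_of_nonneg_left (add_le_add (add_le_add sM s3) s5) hβ.le
    have u2 := mul_le_mul_of_nonneg_left s2 (by positivity : (0 : ℝ) ≤ 4 * β⁻¹)
    linarith

end

end Vale.Agent.P141.H811
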