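import Vale.Agent.P141.H811.NumPM
import Vale.Agent.P141.H43.SeamPM
import Vale.Agent.P141.H677.SlotX
import Vale.Agent.P141.H900.NumMass

/-!
# P141, line (A), flow part: the numbers of the stack of one slot on one plane of a shifted grid

* `num_of` : `Sk1.Num` from plain sums for `en`, `var` and the raw fields `born`, `cross`, `cap`;
* `mv_z`, `WQ_ThF` : the mean slot on the shifted grid in the letters of `num_TF`;
* `nsq_sh` : a matrix applied to the translated slot; `eR_z`, `qD_z`, `qDR_z`;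
* **`num_z`** : `Num` at every `x₀`, sums from `H677.Sk.NumX` and one mass number.
-/

namespace Vale.Agent.P141.H811

open Finset Matrix Vale.Agent.P141.PL Vale.Agent.P141.H103
open Vale.Agent.P141.H235.S1
open Vale.Agent.P141.H389 Vale.Agent.P141.H505.Sk1
open Vale.Agent.P075
open Vale.Agent.P141.H747 (RgS shA shB shC sft)
open Vale.Agent.P141.H677 (rt)
open Vale.Agent.P141.H677.Sk (FamA FamV Slt av)
open Vale.Agent.P141.H43 (nsq nsq_nonneg)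
open Vale.Agent.P141.H43.Seam (WQ MQ NQ DQ WQ_wt DQ_symm Q_left Q_right)

noncomputable section

open scoped Classical

variable {κ : Type} [Fintype κ] [DecidableEq κ]

/-- **The numbers of the flow part**, raw fields `born`, `cross`, `cap`. -/
theorem num_of {k₀ N : ℕ} {r1 r2 r3 : ℤ} {pl : ℕ → ℤ} {A : ℕ → ℤ → ℤ → ℝ}
    {b c : ℕ → ℤ → ℤ → κ → ℝ} {β E cC : ℝ} (hβ : 0 < β) {R D : ℤ → ℕ → ℤ → Matrix κ κ ℝ}
    (h : Mv N R D) (hE : 0 ≤ E)
    (h_en : ∀ k, k₀ ≤ k → k ≤ N → ∀ j, k ≤ j → j ≤ k + 1 →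
      β * ∑ x ∈ iv N r1, ∑ z ∈ iv N r3, H235.S1.sq (c j x z) +
        ∑ x ∈ iv N r1, ∑ z ∈ iv N r3, eR (c j) R k x z ≤ E)
    (h_var : 4 * ∑ k ∈ Ico k₀ N, ∑ x ∈ iv N r1, ∑ z ∈ iv N r3, qD (c (k + 1)) D k x z +
      4 * β⁻¹ * ∑ k ∈ Ico k₀ N, ∑ x ∈ iv N r1, ∑ z ∈ iv N r3, qDR (c (k + 1)) R D k x z ≤ E)
    (born : ∑ k ∈ Ico k₀ N, ∑ x ∈ iv N r1, ∑ z ∈ iv N r3,
      (if Ch c k (ix k x) (ix k z) then eT (c (k + 1)) (ThF β R) k x z else 0) ≤ E)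
    (cross : ∑ k ∈ Ico k₀ N, GW N r2 r3 r1 k (pl k) (fun n2 n1 m =>
      if Ch A k n2 m ∨ Ch b k n1 n2 ∨ Ch c k n1 m then
        (W3 (c (k + 1)) (ThF β R) k k n1 m).trace else 0) ≤ E)
    (h_cap : ∀ k a n m, k₀ ≤ k → k₀ ≤ a → k ≤ N → a ≤ N → ∀ j, min k a ≤ j → j ≤ min k a + 1 →
      n ∈ iv (N - a) r1 → m ∈ iv (N - k) r3 →
      (cC ^ 2 • (1 : Matrix (Ix k) (Ix k) ℝ) - W3 (c j) (ThF β R) k a n m).PosSemidef) :
    Num k₀ N r1 r2 r3 pl A b c (ThF β R) (MF R D) (fun _ _ _ => 0) E cC where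
  en k h0 hk j hj hj' := by
    refine le_trans (le_of_eq ?_) (h_en k h0 hk j hj hj')
    simp only [eT_TF (c j) h, sum_add_distrib, ← mul_sum]
  var := by
    refine le_trans ?_ h_var
    rw [mul_sum, mul_sum, ← sum_add_distrib]
    refine sum_le_sum fun k hk => ?_
    rw [mul_sum, mul_sum, ← sum_add_distrib]
    refine sum_le_sum fun x _ => ?_
    rw [mul_sum, mul_sum, ← sum_add_distrib]
    exact sum_le_sum fun z _ => eM_TF (c (k + 1)) hβ h (mem_Ico.1 hk).2 x z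
  dr := by
    refine le_trans (le_of_eq ?_) hE
    simp only [zero_mulVec, dotProduct_zero, sum_const_zero]
  born := born
  cross := cross
  cap := h_cap

/-! ### The mean slot on the shifted grid -/

section slot

variable {K : ℕ} {R : Slt κ} {x0 : ℤ}

omit [Fintype κ] [DecidableEq κ] in
theorem RgS_symm (hR : ∀ z x, (R x0 0 z x)ᵀ = R x0 0 z x) (h h1 : ℤ) (k : ℕ) (n x : ℤ) :
    (RgS R h h1 x0 k n x)ᵀ = RgS R h h1 x0 k n x := by
  unfold H747.RgS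
  rw [transpose_smul, transpose_sum]
  simp only [hR]

omit [Fintype κ] [DecidableEq κ] in
theorem mv_z (K : ℕ) (hR : ∀ z x, (R x0 0 z x)ᵀ = R x0 0 z x) (h h1 : ℤ) :
    Mv K (fun x k m => RgS R h h1 x0 k m x) (fun x k m => DQ (RgS R h h1 x0) k m x) where
  symR x k m := RgS_symm hR h h1 k m x
  symD x k m := DQ_symm (RgS_symm hR h h1) k m x
  left x k m _ := Q_left (fun k n x => H747.RgS_mart R h h1 x0 k n x) k m x
  right x k m _ := Q_right (fun k n x => H747.RgS_mart R h h1 x0 k n x) k m x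

theorem WQ_ThF (hR : ∀ z x, (R x0 0 z x)ᵀ = R x0 0 z x) (ε : ℝ) (h h1 : ℤ) :
    WQ ε (RgS R h h1 x0) = ThF (ε ^ 2) (fun x k m => RgS R h h1 x0 k m x) := by
  funext x k m
  exact WQ_wt (RgS_symm hR h h1) x k m

/-! ### Pointwise -/

variable {M s : Pt} {C : ℕ → ℤ → ℤ → κ → ℝ} {ν : ℝ}

omit [DecidableEq κ] in
/-- **A matrix of the point applied to the translated slot.** -/
theorem nsq_sh (G : ℤ → ℤ → Matrix κ κ ℝ) (j : ℕ) (x z : ℤ) :
    nsq (G (z + s.2.2) (x + s.1) *ᵥ (ν • shC K M s C j z x)) =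
      ν ^ 2 * sft K M.1 M.2.2 s.1 s.2.2 (fun x z => nsq (G z x *ᵥ C j z x)) x z := by
  unfold H747.shC H747.sft
  by_cases h : ix K (z + s.2.2) = M.2.2 ∧ ix K (x + s.1) = M.1
  · rw [if_pos h, if_pos ⟨h.2, h.1⟩, mulVec_smul]
    unfold H43.nsq
    rw [smul_dotProduct, dotProduct_smul, smul_eq_mul, smul_eq_mul]
    ring
  · rw [if_neg h, if_neg fun e => h ⟨e.2, e.1⟩, smul_zero, mulVec_zero, mul_zero]
    unfold H43.nsq
    exact dotProduct_zero _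

omit [DecidableEq κ] in
theorem sq_sh (j : ℕ) (x z : ℤ) :
    H235.S1.sq (ν • shC K M s C j z x) =
      ν ^ 2 * sft K M.1 M.2.2 s.1 s.2.2 (fun x z => nsq (C j z x)) x z := by
  unfold H747.shC H747.sft
  by_cases h : ix K (z + s.2.2) = M.2.2 ∧ ix K (x + s.1) = M.1
  · rw [if_pos h, if_pos ⟨h.2, h.1⟩]
    unfold H235.S1.sq H43.nsq
    rw [smul_dotProduct, dotProduct_smul, smul_eq_mul, smul_eq_mul]
    ring
  · rw [if_neg h, if_neg fun e => h ⟨e.2, e.1⟩, smul_zero, mul_zero]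
    unfold H235.S1.sq
    exact dotProduct_zero _

omit [DecidableEq κ] in
theorem eR_z (k j : ℕ) (x z : ℤ) :
    eR (fun x z => ν • shC K M s C j z x) (fun x k m => RgS R s.2.2 s.1 x0 k m x) k x z =
      ν ^ 2 * sft K M.1 M.2.2 s.1 s.2.2 (fun x z => nsq (av R s.2.2 x0 k z x *ᵥ C j z x))
        x z := by
  have h := nsq_sh (K := K) (M := M) (s := s) (C := C) (ν := ν) (fun z x => av R s.2.2 x0 k z x)
    j x z
  rw [H747.av_RgS] at h
  exact h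

omit [Fintype κ] [DecidableEq κ] in
/-- the half difference is the move up to the sign -/
theorem DQ_move (h h1 : ℤ) (k : ℕ) (x z : ℤ) :
    DQ (RgS R h h1 x0) (k + 1) (ix (k + 1) z) x =
        RgS R h h1 x0 k (ix k z) x - RgS R h h1 x0 (k + 1) (ix (k + 1) z) x ∨
      DQ (RgS R h h1 x0) (k + 1) (ix (k + 1) z) x =
        -(RgS R h h1 x0 k (ix k z) x - RgS R h h1 x0 (k + 1) (ix (k + 1) z) x) := by
  have hm := fun k n x => H747.RgS_mart R h h1 x0 k n x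
  rcases ix_half k z with e | e
  · left
    rw [e, Q_left hm]
    abel
  · right
    rw [e, Q_right hm]
    abel

omit [DecidableEq κ] in
theorem nsq_pm {D G : Matrix κ κ ℝ} (h : D = G ∨ D = -G) (v : κ → ℝ) :
    nsq (D *ᵥ v) = nsq (G *ᵥ v) := by
  rcases h with h | h
  · rw [h]
  · rw [h, neg_mulVec]
    unfold H43.nsq
    exact neg_dotProduct_neg _ _

omit [DecidableEq κ] in
theorem qD_z (k j : ℕ) (x z : ℤ) :
    qD (fun x z => ν • shC K M s C j z x) (fun x k m => DQ (RgS R s.2.2 s.1 x0) k m x) k x z =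
      ν ^ 2 * sft K M.1 M.2.2 s.1 s.2.2 (fun x z =>
        nsq ((av R s.2.2 x0 k z x - av R s.2.2 x0 (k + 1) z x) *ᵥ C j z x)) x z := by
  have h := nsq_sh (K := K) (M := M) (s := s) (C := C) (ν := ν)
    (fun z x => av R s.2.2 x0 k z x - av R s.2.2 x0 (k + 1) z x) j x z
  rw [← h, H747.av_RgS, H747.av_RgS]
  exact nsq_pm (DQ_move s.2.2 s.1 k x z) _

omit [DecidableEq κ] in
theorem qDR_z (k j : ℕ) (x z : ℤ) :
    qDR (fun x z => ν • shC K M s C j z x) (fun x k m => RgS R s.2.2 s.1 x0 k m x)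
      (fun x k m => DQ (RgS R s.2.2 s.1 x0) k m x) k x z =
      ν ^ 2 * sft K M.1 M.2.2 s.1 s.2.2 (fun x z =>
        nsq ((av R s.2.2 x0 k z x - av R s.2.2 x0 (k + 1) z x) *ᵥ
          (av R s.2.2 x0 (k + 1) z x *ᵥ C j z x))) x z := by
  have h := nsq_sh (K := K) (M := M) (s := s) (C := C) (ν := ν)
    (fun z x => (av R s.2.2 x0 k z x - av R s.2.2 x0 (k + 1) z x) *
      av R s.2.2 x0 (k + 1) z x) j x z
  simp only [← mulVec_mulVec] at h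
  rw [← h, H747.av_RgS, H747.av_RgS]
  exact nsq_pm (DQ_move s.2.2 s.1 k x z) _

/-- the sum over a translated root cell -/
theorem sum_sft {ν : ℝ} {f : ℤ → ℤ → ℝ} (hf : ∀ x z, 0 ≤ f x z) (I J : Finset ℤ) :
    ∑ x ∈ I, ∑ z ∈ J, ν ^ 2 * sft K M.1 M.2.2 s.1 s.2.2 f x z ≤
      ν ^ 2 * ∑ x ∈ iv K M.1, ∑ z ∈ iv K M.2.2, f x z := by
  simp only [← mul_sum]
  exact mul_le_mul_of_nonneg_left (H900.Num.sh_root K M.1 M.2.2 s.1 s.2.2 I J hf) (sq_nonneg ν)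

end slot

/-! ### The numbers at every `x₀` -/

section all

variable {K : ℕ} {M s : Pt} {R : Slt κ} {A : FamA} {b C : FamV κ}

/-- the stopped slot `A` on the grid -/
def Az (K : ℕ) (M s : Pt) (A : FamA) (x0 : ℤ) (k : ℕ) (y z : ℤ) : ℝ :=
  shA K M s (A x0) (min k K) z y

/-- the stopped slot `b` on the grid -/
def bz (K : ℕ) (M s : Pt) (b : FamV κ) (x0 : ℤ) (k : ℕ) (x y : ℤ) : κ → ℝ :=
  shB K M s (b x0) (min k K) x y

/-- the stopped slot `C` on the grid, times `ν` -/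
def cz (K : ℕ) (M s : Pt) (ν : ℝ) (C : FamV κ) (x0 : ℤ) (k : ℕ) (x z : ℤ) : κ → ℝ :=
  ν • shC K M s (C x0) (min k K) z x

/-- **The numbers of the stack at every `x₀`.** -/
theorem num_z {ν ε X Xm Xc cC : ℝ} (hε : 0 < ε) (hX : H677.Sk.NumX K M R C s X)
    (hR : ∀ x0 z x, (R x0 0 z x)ᵀ = R x0 0 z x) (q : Pt) (pl : ℤ → ℕ → ℤ) {MM Ec : ℤ → ℝ}
    (hMM : ∀ x0, 0 ≤ MM x0) (hEc : ∀ x0, 0 ≤ Ec x0)
    (hM : ∀ t ∈ rt M, ∀ x0 ∈ iv K t, ∀ j ≤ K,
      ∑ x ∈ iv K M.1, ∑ z ∈ iv K M.2.2, nsq (C x0 j z x) ≤ MM x0)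
    (sM : ∑ t ∈ rt M, ∑ x0 ∈ iv K t, MM x0 ≤ Xm)
    (sc : ∑ t ∈ rt M, ∑ x0 ∈ iv K t, Ec x0 ≤ Xc)
    (born : ∀ t ∈ rt M, ∀ x0 ∈ iv K t, ∑ k ∈ Ico 0 K, ∑ x ∈ iv K (M.1 - q.1),
      ∑ z ∈ iv K (M.2.2 - q.2.2), (if Ch (cz K M s ν C x0) k (ix k x) (ix k z) then
        eT (cz K M s ν C x0 (k + 1)) (WQ ε (RgS R s.2.2 s.1 x0)) k x z else 0) ≤ Ec x0)
    (cross : ∀ t ∈ rt M, ∀ x0 ∈ iv K t, ∑ k ∈ Ico 0 K,
      GW K (M.2.1 - q.2.1) (M.2.2 - q.2.2) (M.1 - q.1) k (pl x0 k) (fun n2 n1 m =>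
        if Ch (Az K M s A x0) k n2 m ∨ Ch (bz K M s b x0) k n1 n2 ∨
            Ch (cz K M s ν C x0) k n1 m then
          (W3 (cz K M s ν C x0 (k + 1)) (WQ ε (RgS R s.2.2 s.1 x0)) k k n1 m).trace else 0) ≤
        Ec x0)
    (cap : ∀ t ∈ rt M, ∀ x0 ∈ iv K t, ∀ k a n m, k ≤ K → a ≤ K → ∀ j, min k a ≤ j →
      j ≤ min k a + 1 → n ∈ iv (K - a) (M.1 - q.1) → m ∈ iv (K - k) (M.2.2 - q.2.2) →
      (cC ^ 2 • (1 : Matrix (Ix k) (Ix k) ℝ) -
        W3 (cz K M s ν C x0 j) (WQ ε (RgS R s.2.2 s.1 x0)) k a n m).PosSemidef) :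
    ∃ En : ℤ → ℝ, (∀ x0, 0 ≤ En x0) ∧
      ∑ t ∈ rt M, ∑ x0 ∈ iv K t, En x0 ≤
        ν ^ 2 * (5 * X + 4 * (ε ^ 2)⁻¹ * X + ε ^ 2 * Xm) + Xc ∧
      ∀ t ∈ rt M, ∀ x0 ∈ iv K t, Num 0 K (M.1 - q.1) (M.2.1 - q.2.1) (M.2.2 - q.2.2) (pl x0)
        (Az K M s A x0) (bz K M s b x0) (cz K M s ν C x0) (WQ ε (RgS R s.2.2 s.1 x0))
        (MQ (RgS R s.2.2 s.1 x0)) (fun _ _ _ => 0) (En x0) cC := by
  obtain ⟨E, hE0, hE1, hE2⟩ := hX.en
  set V1 : ℤ → ℝ := fun x0 => ∑ k ∈ range K, ∑ x ∈ iv K M.1, ∑ z ∈ iv K M.2.2,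
    nsq ((av R s.2.2 x0 k z x - av R s.2.2 x0 (k + 1) z x) *ᵥ C x0 (k + 1) z x) with hV1
  set V2 : ℤ → ℝ := fun x0 => ∑ k ∈ range K, ∑ x ∈ iv K M.1, ∑ z ∈ iv K M.2.2,
    nsq ((av R s.2.2 x0 k z x - av R s.2.2 x0 (k + 1) z x) *ᵥ
      (av R s.2.2 x0 (k + 1) z x *ᵥ C x0 (k + 1) z x)) with hV2
  have n1 : ∀ x0, 0 ≤ V1 x0 := fun x0 => sum_nonneg fun k _ => sum_nonneg fun x _ =>
    sum_nonneg fun z _ => nsq_nonneg _
  have n2 : ∀ x0, 0 ≤ V2 x0 := fun x0 => sum_nonneg fun k _ => sum_nonneg fun x _ =>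
    sum_nonneg fun z _ => nsq_nonneg _
  have hi : 0 < (ε ^ 2)⁻¹ := by positivity
  refine ⟨fun x0 => ν ^ 2 * (E x0 + 4 * V1 x0 + 4 * (ε ^ 2)⁻¹ * V2 x0 + ε ^ 2 * MM x0) + Ec x0,
    fun x0 => ?_, ?_, fun t ht x0 hx0 => ?_⟩
  · have := hE0 x0
    have := n1 x0
    have := n2 x0
    have := hMM x0
    have := hEc x0
    positivity
  · have e : ∑ t ∈ rt M, ∑ x0 ∈ iv K t, (ν ^ 2 * (E x0 + 4 * V1 x0 + 4 * (ε ^ 2)⁻¹ * V2 x0 +
        ε ^ 2 * MM x0) + Ec x0) = ν ^ 2 * (∑ t ∈ rt M, ∑ x0 ∈ iv K t, E x0 +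
          4 * ∑ t ∈ rt M, ∑ x0 ∈ iv K t, V1 x0 +
          4 * (ε ^ 2)⁻¹ * ∑ t ∈ rt M, ∑ x0 ∈ iv K t, V2 x0 +
          ε ^ 2 * ∑ t ∈ rt M, ∑ x0 ∈ iv K t, MM x0) + ∑ t ∈ rt M, ∑ x0 ∈ iv K t, Ec x0 := by
      simp only [sum_add_distrib, mul_add, mul_sum]
    rw [e]
    refine add_le_add (mul_le_mul_of_nonneg_left ?_ (sq_nonneg ν)) sc
    have u1 : ∑ t ∈ rt M, ∑ x0 ∈ iv K t, V1 x0 ≤ X := hX.q
    have u2 : ∑ t ∈ rt M, ∑ x0 ∈ iv K t, V2 x0 ≤ X := hX.q2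
    have u3 := mul_le_mul_of_nonneg_left u2 (by positivity : 0 ≤ 4 * (ε ^ 2)⁻¹)
    have u4 := mul_le_mul_of_nonneg_left sM (sq_nonneg ε)
    linarith
  · have a0 := hE0 x0
    have a1 := n1 x0
    have a2 : 0 ≤ 4 * (ε ^ 2)⁻¹ * V2 x0 := mul_nonneg (by positivity) (n2 x0)
    have a3 : 0 ≤ ε ^ 2 * MM x0 := mul_nonneg (sq_nonneg ε) (hMM x0)
    have a4 := hEc x0
    have a5 : 0 ≤ ν ^ 2 := sq_nonneg ν
    have b0 := mul_nonneg a5 a0
    have b1 := mul_nonneg a5 a1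
    have b2 := mul_nonneg a5 a2
    have b3 := mul_nonneg a5 a3
    have hE : Ec x0 ≤ ν ^ 2 * (E x0 + 4 * V1 x0 + 4 * (ε ^ 2)⁻¹ * V2 x0 + ε ^ 2 * MM x0) +
        Ec x0 := by nlinarith
    rw [WQ_ThF (hR x0) ε s.2.2 s.1]
    have hb := born t ht x0 hx0
    have hc := cross t ht x0 hx0
    have hp := cap t ht x0 hx0
    rw [WQ_ThF (hR x0) ε s.2.2 s.1] at hb hc hp
    refine num_of (sq_pos_of_pos hε) (mv_z K (hR x0) s.2.2 s.1) (a4.trans hE) ?_ ?_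
      (hb.trans hE) (hc.trans hE) ?_
    · intro k _ hk j hj hj'
      have c1 : ∑ x ∈ iv K (M.1 - q.1), ∑ z ∈ iv K (M.2.2 - q.2.2),
          H235.S1.sq (cz K M s ν C x0 j x z) ≤ ν ^ 2 * MM x0 := by
        refine le_trans (le_of_eq ?_) ((sum_sft (K := K) (M := M) (s := s) (ν := ν)
          (f := fun x z => nsq (C x0 (min j K) z x)) (fun x z => nsq_nonneg _)
          (iv K (M.1 - q.1)) (iv K (M.2.2 - q.2.2))).trans
          (mul_le_mul_of_nonneg_left (hM t ht x0 hx0 _ (min_le_right _ _)) a5))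
        exact sum_congr rfl fun x _ => sum_congr rfl fun z _ => sq_sh (min j K) x z
      have c2 : ∑ x ∈ iv K (M.1 - q.1), ∑ z ∈ iv K (M.2.2 - q.2.2),
          eR (cz K M s ν C x0 j) (fun x k m => RgS R s.2.2 s.1 x0 k m x) k x z ≤
            ν ^ 2 * E x0 := by
        refine le_trans (le_of_eq ?_) ((sum_sft (K := K) (M := M) (s := s) (ν := ν)
          (f := fun x z => nsq (av R s.2.2 x0 k z x *ᵥ C x0 (min j K) z x))
          (fun x z => nsq_nonneg _)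
          (iv K (M.1 - q.1)) (iv K (M.2.2 - q.2.2))).trans
          (mul_le_mul_of_nonneg_left (hE2 t ht x0 hx0 k hk (min j K) (min_le_right _ _)
            ((min_le_left _ _).trans hj')) a5))
        exact sum_congr rfl fun x _ => sum_congr rfl fun z _ => eR_z k (min j K) x z
      have c3 := mul_le_mul_of_nonneg_left c1 (sq_nonneg ε)
      nlinarith
    · rw [← range_eq_Ico]
      have c1 : ∑ k ∈ range K, ∑ x ∈ iv K (M.1 - q.1), ∑ z ∈ iv K (M.2.2 - q.2.2),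
          qD (cz K M s ν C x0 (k + 1)) (fun x k m => DQ (RgS R s.2.2 s.1 x0) k m x) k x z ≤
            ν ^ 2 * V1 x0 := by
        rw [hV1]
        beta_reduce
        rw [mul_sum]
        refine sum_le_sum fun k hk => ?_
        have hk' : min (k + 1) K = k + 1 := min_eq_left (Nat.succ_le_of_lt (mem_range.1 hk))
        refine le_trans (le_of_eq ?_) (sum_sft (K := K) (M := M) (s := s) (ν := ν)
          (f := fun x z => nsq ((av R s.2.2 x0 k z x - av R s.2.2 x0 (k + 1) z x) *ᵥ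
            C x0 (k + 1) z x)) (fun x z => nsq_nonneg _)
          (iv K (M.1 - q.1)) (iv K (M.2.2 - q.2.2)))
        refine sum_congr rfl fun x _ => sum_congr rfl fun z _ => ?_
        have := qD_z (K := K) (R := R) (x0 := x0) (M := M) (s := s) (C := C x0) (ν := ν) k
          (k + 1) x z
        rw [← this]
        unfold cz
        rw [hk']
      have c2 : ∑ k ∈ range K, ∑ x ∈ iv K (M.1 - q.1), ∑ z ∈ iv K (M.2.2 - q.2.2),
          qDR (cz K M s ν C x0 (k + 1)) (fun x k m => RgS R s.2.2 s.1 x0 k m x)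
            (fun x k m => DQ (RgS R s.2.2 s.1 x0) k m x) k x z ≤ ν ^ 2 * V2 x0 := by
        rw [hV2]
        beta_reduce
        rw [mul_sum]
        refine sum_le_sum fun k hk => ?_
        have hk' : min (k + 1) K = k + 1 := min_eq_left (Nat.succ_le_of_lt (mem_range.1 hk))
        refine le_trans (le_of_eq ?_) (sum_sft (K := K) (M := M) (s := s) (ν := ν)
          (f := fun x z => nsq ((av R s.2.2 x0 k z x - av R s.2.2 x0 (k + 1) z x) *ᵥ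
            (av R s.2.2 x0 (k + 1) z x *ᵥ C x0 (k + 1) z x))) (fun x z => nsq_nonneg _)
          (iv K (M.1 - q.1)) (iv K (M.2.2 - q.2.2)))
        refine sum_congr rfl fun x _ => sum_congr rfl fun z _ => ?_
        have := qDR_z (K := K) (R := R) (x0 := x0) (M := M) (s := s) (C := C x0) (ν := ν) k
          (k + 1) x z
        rw [← this]
        unfold cz
        rw [hk']
      have c3 := mul_le_mul_of_nonneg_left c2 (by positivity : 0 ≤ 4 * (ε ^ 2)⁻¹)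
      nlinarith
    · intro k a n m _ _ hk ha j hj hj' hn hm
      exact hp k a n m hk ha j hj hj' hn hm

end all

end

end Vale.Agent.P141.H811
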