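import Vale.Agent.P141.H305.TopDefs
import Vale.Agent.P141.H579.CutC
import Vale.Agent.P141.H579.Rest2
import Vale.Agent.P141.H769.EN3

/-!
# P141, line (A), item D5: columns which are too heavy are removed (`ColCl`)

`w z y ≥ 0` a density on the plane (label vertex `z`, split vertex `y`), for example the square of
the norm of `u z y`.  Going down from the scale `K`: on an alive square of scale `k` a column `y` is
heavy if it is not removed yet and its average over the cell of `z` is more than `R`; if the heavy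
columns carry more than `θ` on the square, then they are removed there.

* `dead k z y` : the column `y` is removed at scale `k` over the cell of `z`; depends on
  `(ix k z, y)`, increasing when `k` decreases (`dead_congr`, `dead_mono`);
* `afc k z y` : the square is affected; `dead_agree` : no change on squares which are not affected;
* `pack` : packing of the affected squares, constant `m / θ`, all squares of all scales;
* `heavy_now`, `heavy_next` : on an alive square the heavy columns which are left carry at most `θ`,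
  `4 θ`;
* `removed` : `∑ 2 ^ j` over the removed cells of one column is at most `R⁻¹ ∑ w z y`;
* `US_kill` : the function `F3` killed on the removed columns is a uniform slot;
* `split` : the cost is at most the cost with the killed `F3` plus the costs of the removed boxes.
-/

namespace Vale.Agent.P141.H811

open Finset Vale.Agent.P141.PL
open Vale.Agent.P141.PL.H315 (cube3 atm Tri A2 avg avg_nonneg e12 e13 e23)
open Vale.Agent.P141.PL.H560 (cbs bx0)
open Vale.Agent.P141.PL.H317 (crn)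
open Vale.Agent.P141.H922 (wP)
open Vale.Agent.P141.H48 (US ES BSl BUn sst cst ind ind_nonneg sum_ind_le_one)
open Vale.Agent.P141.H579 (cosA Her sum_cbs_split cx_of_mem_cbs cx_crn)
open Vale.Agent.P141.H769 (ix_of_le corner sq_pts ix_two_pow_mul)
open Vale.Agent.P141.H305 (Cls)

noncomputable section

open scoped Classical

/-! ### The removed columns -/

section defs

variable (al : ℕ → ℤ → ℤ → Prop) (w : ℤ → ℤ → ℝ) (R θ : ℝ) (K : ℕ)

/-- the column `y` is heavy over the cell of scale `k` of `z`; `D` the columns already removed -/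
def hv (D : ℤ → ℤ → Prop) (k : ℕ) (z y : ℤ) : Prop :=
  ¬ D z y ∧ R < avg (iv k (ix k z)) fun z' => w z' y

/-- the square of scale `k` of `(z, y)` is alive and its heavy columns carry more than `θ` -/
def af (D : ℤ → ℤ → Prop) (k : ℕ) (z y : ℤ) : Prop :=
  al k z y ∧ θ < avg (iv k (ix k z) ×ˢ iv k (ix k y)) fun p =>
    if hv w R D k p.1 p.2 then w p.1 p.2 else 0

/-- the removed columns after `i` steps from the top -/
def ddn : ℕ → ℤ → ℤ → Prop
  | 0 => fun _ _ => False
  | i + 1 => fun z y => ddn i z y ∨ (af al w R θ (ddn i) (K - i) z y ∧ hv w R (ddn i) (K - i) z y)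

/-- **the removed columns at scale `k`** -/
def dead (k : ℕ) (z y : ℤ) : Prop := ddn al w R θ K (K + 1 - k) z y

/-- the square of scale `k` is affected -/
def afc (k : ℕ) (z y : ℤ) : Prop := k ≤ K ∧ af al w R θ (dead al w R θ K (k + 1)) k z y

/-- the column is removed at scale `k` -/
def new (k : ℕ) (z y : ℤ) : Prop :=
  afc al w R θ K k z y ∧ hv w R (dead al w R θ K (k + 1)) k z y

end defs

section facts

variable {al : ℕ → ℤ → ℤ → Prop} {w : ℤ → ℤ → ℝ} {R θ : ℝ} {K : ℕ}

theorem dead_top {k : ℕ} (hk : K < k) (z y : ℤ) : ¬ dead al w R θ K k z y := by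
  unfold dead
  rw [show K + 1 - k = 0 by omega]
  exact fun h => h

theorem dead_iff (k : ℕ) (z y : ℤ) :
    dead al w R θ K k z y ↔ dead al w R θ K (k + 1) z y ∨ new al w R θ K k z y := by
  by_cases hk : k ≤ K
  · have e1 : K + 1 - k = (K - k) + 1 := by omega
    have e2 : K + 1 - (k + 1) = K - k := by omega
    have e3 : K - (K - k) = k := by omega
    unfold new afc
    unfold dead
    rw [e1, e2]
    show ddn al w R θ K (K - k) z y ∨ (af al w R θ (ddn al w R θ K (K - k)) (K - (K - k)) z y ∧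
      hv w R (ddn al w R θ K (K - k)) (K - (K - k)) z y) ↔ _
    rw [e3]
    constructor
    · rintro (h | h)
      · exact Or.inl h
      · exact Or.inr ⟨⟨hk, h.1⟩, h.2⟩
    · rintro (h | h)
      · exact Or.inl h
      · exact Or.inr ⟨h.1.2, h.2⟩
  · have h1 := dead_top (al := al) (w := w) (R := R) (θ := θ) (K := K) (k := k) (by omega) z y
    have h2 := dead_top (al := al) (w := w) (R := R) (θ := θ) (K := K) (k := k + 1) (by omega) z y
    have h3 : ¬ new al w R θ K k z y := fun h => hk h.1.1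
    tauto

theorem dead_mono {k l : ℕ} (hkl : k ≤ l) {z y : ℤ} (h : dead al w R θ K l z y) :
    dead al w R θ K k z y := by
  induction l, hkl using Nat.le_induction with
  | base => exact h
  | succ l _ ih => exact ih ((dead_iff l z y).2 (Or.inl h))

theorem dead_of_new {k : ℕ} {z y : ℤ} (h : new al w R θ K k z y) : dead al w R θ K k z y :=
  (dead_iff k z y).2 (Or.inr h)

theorem new_disj {z y : ℤ} (k l : ℕ) (hk : new al w R θ K k z y) (hl : new al w R θ K l z y) :
    k = l := by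
  rcases lt_trichotomy k l with h | h | h
  · exact absurd (dead_mono h (dead_of_new hl)) hk.2.1
  · exact h
  · exact absurd (dead_mono h (dead_of_new hk)) hl.2.1

/-- a removed column was removed at exactly one scale -/
theorem dead_new {k : ℕ} {z y : ℤ} :
    dead al w R θ K k z y ↔ ∃ j, k ≤ j ∧ new al w R θ K j z y := by
  constructor
  · intro h
    by_contra hn
    push Not at hn
    have h1 : ∀ l, k ≤ l → dead al w R θ K l z y := by
      intro l hl
      induction l, hl using Nat.le_induction with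
      | base => exact h
      | succ l hl ih =>
        rcases (dead_iff l z y).1 ih with h2 | h2
        · exact h2
        · exact absurd h2 (hn l hl)
    exact dead_top (k := max k (K + 1)) (by omega) z y (h1 _ (le_max_left _ _))
  · rintro ⟨j, hj, h⟩
    exact dead_mono hj (dead_of_new h)

variable (hal : ∀ k z z' y y', ix k z = ix k z' → ix k y = ix k y' → (al k z y ↔ al k z' y'))

include hal in
theorem af_congr (D : ℤ → ℤ → Prop) {k : ℕ} {z z' y y' : ℤ} (h1 : ix k z = ix k z')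
    (h2 : ix k y = ix k y') : af al w R θ D k z y ↔ af al w R θ D k z' y' := by
  unfold af
  rw [hal k z z' y y' h1 h2, h1, h2]

include hal in
theorem afc_congr {k : ℕ} {z z' y y' : ℤ} (h1 : ix k z = ix k z') (h2 : ix k y = ix k y') :
    afc al w R θ K k z y ↔ afc al w R θ K k z' y' := by
  unfold afc
  rw [af_congr hal _ h1 h2]

include hal in
/-- **(1)** -/
theorem dead_congr {k : ℕ} {z z' : ℤ} (y : ℤ) (h : ix k z = ix k z') :
    dead al w R θ K k z y ↔ dead al w R θ K k z' y := by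
  have key : ∀ i k, K + 1 - k = i → ∀ z z', ix k z = ix k z' →
      (dead al w R θ K k z y ↔ dead al w R θ K k z' y) := by
    intro i
    induction i with
    | zero =>
      intro k hk z z' _
      have h1 := dead_top (al := al) (w := w) (R := R) (θ := θ) (K := K) (k := k) (by omega) z y
      have h2 := dead_top (al := al) (w := w) (R := R) (θ := θ) (K := K) (k := k) (by omega) z' y
      tauto
    | succ i ih =>
      intro k hk z z' h
      have h1 := ih (k + 1) (by omega) z z' (ix_of_le (Nat.le_succ k) h)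
      have h2 : new al w R θ K k z y ↔ new al w R θ K k z' y := by
        unfold new
        rw [afc_congr hal h rfl]
        unfold hv
        rw [h1, h]
      rw [dead_iff, dead_iff k z', h1, h2]
  exact key _ k rfl z z' h

include hal in
theorem hv_congr {k : ℕ} {z z' : ℤ} (y : ℤ) (h : ix k z = ix k z') :
    hv w R (dead al w R θ K (k + 1)) k z y ↔ hv w R (dead al w R θ K (k + 1)) k z' y := by
  unfold hv
  rw [dead_congr hal y (ix_of_le (Nat.le_succ k) h), h]

include hal in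
theorem new_congr {k : ℕ} {z z' : ℤ} (y : ℤ) (h : ix k z = ix k z') :
    new al w R θ K k z y ↔ new al w R θ K k z' y := by
  unfold new
  rw [afc_congr hal h rfl, hv_congr hal y h]

/-- **(2)** -/
theorem dead_agree {k : ℕ} {z y : ℤ} (h : ¬ afc al w R θ K k z y) :
    dead al w R θ K (k + 1) z y ↔ dead al w R θ K k z y := by
  rw [dead_iff k]
  constructor
  · exact fun h' => Or.inl h'
  · rintro (h' | h')
    · exact h'
    · exact absurd h'.1 h

/-! ### Packing -/

theorem avg_sq (k : ℕ) (r s : ℤ) (f : ℤ × ℤ → ℝ) :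
    avg (iv k r ×ˢ iv k s) f = (4 ^ k : ℝ)⁻¹ * ∑ x ∈ iv k r, ∑ y ∈ iv k s, f (x, y) := by
  unfold avg
  rw [sum_product, card_product, card_iv, card_iv]
  congr 1
  push_cast
  rw [← mul_pow]
  norm_num

include hal in
/-- one affected square -/
theorem one_sq (hw : ∀ z y, 0 ≤ w z y) (hθ : 0 < θ) (k : ℕ) (r s : ℤ) :
    (if afc al w R θ K k (2 ^ k * r) (2 ^ k * s) then (4 : ℝ) ^ k else 0) ≤
      θ⁻¹ * ∑ x ∈ iv k r, ∑ y ∈ iv k s, ind (new al w R θ K k x y) * w x y := by
  have h0 : 0 ≤ ∑ x ∈ iv k r, ∑ y ∈ iv k s, ind (new al w R θ K k x y) * w x y :=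
    sum_nonneg fun x _ => sum_nonneg fun y _ => mul_nonneg (ind_nonneg _) (hw x y)
  split_ifs with h
  · have h1 := h.2.2
    rw [ix_two_pow_mul, ix_two_pow_mul, avg_sq] at h1
    have h2 : ∑ x ∈ iv k r, ∑ y ∈ iv k s, ind (new al w R θ K k x y) * w x y =
        ∑ x ∈ iv k r, ∑ y ∈ iv k s,
          if hv w R (dead al w R θ K (k + 1)) k x y then w x y else 0 := by
      refine sum_congr rfl fun x hx => sum_congr rfl fun y hy => ?_
      have h3 : afc al w R θ K k x y :=
        (afc_congr hal (corner k hx) (corner k hy)).2 h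
      unfold ind new
      by_cases h4 : hv w R (dead al w R θ K (k + 1)) k x y
      · rw [if_pos ⟨h3, h4⟩, if_pos h4, one_mul]
      · rw [if_neg (fun h5 => h4 h5.2), if_neg h4, zero_mul]
    rw [h2]
    have h4 : (0 : ℝ) < 4 ^ k := by positivity
    rw [inv_mul_eq_div, lt_div_iff₀ h4] at h1
    rw [inv_mul_eq_div, le_div_iff₀ hθ]
    calc (4 : ℝ) ^ k * θ = θ * 4 ^ k := mul_comm _ _
      _ ≤ _ := h1.le
  · exact mul_nonneg (inv_nonneg.2 hθ.le) h0

include hal in
/-- **(3), scales up to `K`** -/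
theorem pack1 (hw : ∀ z y, 0 ≤ w z y) (hθ : 0 < θ)
    (hup : ∀ k < K, ∀ z y, al k z y → al (k + 1) z y) {m : ℝ} (hm0 : 0 ≤ m)
    (hm : ∀ k ≤ K, ∀ z y, al k z y →
      avg (iv k (ix k z) ×ˢ iv k (ix k y)) (fun p => w p.1 p.2) ≤ m)
    {K' : ℕ} (hK' : K' ≤ K) (r s : ℤ) :
    ∑ k ∈ range (K' + 1), ∑ r' ∈ iv (K' - k) r, ∑ s' ∈ iv (K' - k) s,
      (if afc al w R θ K k (2 ^ k * r') (2 ^ k * s') then (4 : ℝ) ^ k else 0) ≤
      m / θ * 4 ^ K' := by
  have hup' : ∀ {k l : ℕ}, k ≤ l → l ≤ K → ∀ z y, al k z y → al l z y := by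
    intro k l hkl
    induction l, hkl using Nat.le_induction with
    | base => exact fun _ _ _ h => h
    | succ l _ ih => exact fun hl z y h => hup l (by omega) z y (ih (by omega) z y h)
  by_cases hA : al K' (2 ^ K' * r) (2 ^ K' * s)
  · have h1 : ∑ k ∈ range (K' + 1), ∑ r' ∈ iv (K' - k) r, ∑ s' ∈ iv (K' - k) s,
        (if afc al w R θ K k (2 ^ k * r') (2 ^ k * s') then (4 : ℝ) ^ k else 0) ≤
        ∑ k ∈ range (K' + 1), θ⁻¹ * ∑ x ∈ iv K' r, ∑ y ∈ iv K' s,
          ind (new al w R θ K k x y) * w x y := by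
      refine sum_le_sum fun k hk => ?_
      have hkK : k ≤ K' := by have := mem_range.1 hk; omega
      rw [← sq_pts hkK r s, mul_sum]
      refine sum_le_sum fun r' _ => ?_
      rw [mul_sum]
      exact sum_le_sum fun s' _ => one_sq hal hw hθ k r' s'
    refine h1.trans ?_
    rw [← mul_sum, sum_comm]
    have h2 : ∑ x ∈ iv K' r, ∑ k ∈ range (K' + 1), ∑ y ∈ iv K' s,
        ind (new al w R θ K k x y) * w x y ≤ ∑ x ∈ iv K' r, ∑ y ∈ iv K' s, w x y := by
      refine sum_le_sum fun x _ => ?_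
      rw [sum_comm]
      refine sum_le_sum fun y _ => ?_
      rw [← sum_mul]
      exact mul_le_of_le_one_left (hw x y) (sum_ind_le_one (fun k l => new_disj k l) _)
    have h3 := hm K' hK' _ _ hA
    rw [ix_two_pow_mul, ix_two_pow_mul, avg_sq] at h3
    have h4 : (0 : ℝ) < 4 ^ K' := by positivity
    rw [inv_mul_eq_div, div_le_iff₀ h4] at h3
    calc θ⁻¹ * _ ≤ θ⁻¹ * (m * 4 ^ K') :=
          mul_le_mul_of_nonneg_left (h2.trans h3) (inv_nonneg.2 hθ.le)
      _ = _ := by ring
  · rw [sum_eq_zero]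
    · positivity
    · intro k hk
      have hkK : k ≤ K' := by have := mem_range.1 hk; omega
      refine sum_eq_zero fun r' hr' => sum_eq_zero fun s' hs' => if_neg fun h => hA ?_
      have h1 := hup' hkK hK' _ _ h.2.1
      refine (hal K' _ _ _ _ ?_ ?_).1 h1
      · rw [ix_two_pow_mul, ← Nat.add_sub_cancel' hkK, ← ix_ix, ix_two_pow_mul]
        exact mem_iv.1 hr'
      · rw [ix_two_pow_mul, ← Nat.add_sub_cancel' hkK, ← ix_ix, ix_two_pow_mul]
        exact mem_iv.1 hs'

include hal in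
/-- **(3) packing of the affected squares**, squares of all scales -/
theorem pack (hw : ∀ z y, 0 ≤ w z y) (hθ : 0 < θ)
    (hup : ∀ k < K, ∀ z y, al k z y → al (k + 1) z y) {m : ℝ} (hm0 : 0 ≤ m)
    (hm : ∀ k ≤ K, ∀ z y, al k z y →
      avg (iv k (ix k z) ×ˢ iv k (ix k y)) (fun p => w p.1 p.2) ≤ m)
    (K' : ℕ) (r s : ℤ) :
    ∑ k ∈ range (K' + 1), ∑ r' ∈ iv (K' - k) r, ∑ s' ∈ iv (K' - k) s,
      (if afc al w R θ K k (2 ^ k * r') (2 ^ k * s') then (4 : ℝ) ^ k else 0) ≤
      m / θ * 4 ^ K' := by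
  rcases le_or_gt K' K with hK' | hK'
  · exact pack1 hal hw hθ hup hm0 hm hK' r s
  · have h1 : ∑ k ∈ range (K' + 1), ∑ r' ∈ iv (K' - k) r, ∑ s' ∈ iv (K' - k) s,
        (if afc al w R θ K k (2 ^ k * r') (2 ^ k * s') then (4 : ℝ) ^ k else 0) =
        ∑ a ∈ iv (K' - K) r, ∑ b ∈ iv (K' - K) s, ∑ k ∈ range (K + 1), ∑ r' ∈ iv (K - k) a,
          ∑ s' ∈ iv (K - k) b,
          (if afc al w R θ K k (2 ^ k * r') (2 ^ k * s') then (4 : ℝ) ^ k else 0) := by
      have e1 : ∑ k ∈ range (K' + 1), ∑ r' ∈ iv (K' - k) r, ∑ s' ∈ iv (K' - k) s,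
          (if afc al w R θ K k (2 ^ k * r') (2 ^ k * s') then (4 : ℝ) ^ k else 0) =
          ∑ k ∈ range (K + 1), ∑ r' ∈ iv (K' - k) r, ∑ s' ∈ iv (K' - k) s,
          (if afc al w R θ K k (2 ^ k * r') (2 ^ k * s') then (4 : ℝ) ^ k else 0) := by
        symm
        refine sum_subset (range_subset_range.2 (by omega)) fun k _ hk => ?_
        have hkK : K < k := by
          by_contra h
          exact hk (mem_range.2 (by omega))
        exact sum_eq_zero fun r' _ => sum_eq_zero fun s' _ => if_neg fun h => by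
          have := h.1
          omega
      rw [e1]
      have e2 : ∀ k ∈ range (K + 1), ∑ r' ∈ iv (K' - k) r, ∑ s' ∈ iv (K' - k) s,
          (if afc al w R θ K k (2 ^ k * r') (2 ^ k * s') then (4 : ℝ) ^ k else 0) =
          ∑ a ∈ iv (K' - K) r, ∑ b ∈ iv (K' - K) s, ∑ r' ∈ iv (K - k) a, ∑ s' ∈ iv (K - k) b,
          (if afc al w R θ K k (2 ^ k * r') (2 ^ k * s') then (4 : ℝ) ^ k else 0) := by
        intro k hk
        have hkK : k ≤ K := by have := mem_range.1 hk; omega
        have h2 := sq_pts (k := K - k) (N := K' - k) (by omega) r s fun x y =>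
          (if afc al w R θ K k (2 ^ k * x) (2 ^ k * y) then (4 : ℝ) ^ k else 0)
        rw [show K' - k - (K - k) = K' - K by omega] at h2
        exact h2.symm
      rw [sum_congr rfl e2, sum_comm]
      refine sum_congr rfl fun a _ => ?_
      rw [sum_comm]
    rw [h1]
    have h2 : ∑ a ∈ iv (K' - K) r, ∑ b ∈ iv (K' - K) s, ∑ k ∈ range (K + 1),
        ∑ r' ∈ iv (K - k) a, ∑ s' ∈ iv (K - k) b,
        (if afc al w R θ K k (2 ^ k * r') (2 ^ k * s') then (4 : ℝ) ^ k else 0) ≤
        ∑ a ∈ iv (K' - K) r, ∑ b ∈ iv (K' - K) s, m / θ * 4 ^ K :=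
      sum_le_sum fun a _ => sum_le_sum fun b _ => pack1 hal hw hθ hup hm0 hm le_rfl a b
    refine h2.trans (le_of_eq ?_)
    simp only [sum_const, card_iv, nsmul_eq_mul]
    push_cast
    have h3 : (4 : ℝ) ^ K' = 2 ^ (K' - K) * (2 ^ (K' - K) * 4 ^ K) := by
      rw [← mul_assoc, ← mul_pow, show (2 : ℝ) * 2 = 4 by norm_num, ← pow_add]
      congr 1
      omega
    rw [h3]
    ring

/-! ### Heavy columns which are left -/

include hal in
/-- **(4)**, time and scale `k`: the heavy columns which are left on an alive square -/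
theorem heavy_now (hθ : 0 ≤ θ) {k : ℕ} (hk : k ≤ K) {z y : ℤ} (h : al k z y) :
    avg (iv k (ix k z) ×ˢ iv k (ix k y)) (fun p =>
      if hv w R (dead al w R θ K k) k p.1 p.2 then w p.1 p.2 else 0) ≤ θ := by
  by_cases hA : afc al w R θ K k z y
  · rw [avg_sq]
    refine le_trans (le_of_eq ?_) hθ
    rw [sum_eq_zero, mul_zero]
    intro x hx
    refine sum_eq_zero fun b hb => if_neg ?_
    rintro ⟨h1, h2⟩
    refine h1 (dead_of_new ⟨?_, fun h3 => h1 (dead_mono (Nat.le_succ k) h3), h2⟩)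
    rw [mem_iv] at hx hb
    exact (afc_congr hal hx hb).2 hA
  · have h1 : ¬ af al w R θ (dead al w R θ K (k + 1)) k z y := fun h' => hA ⟨hk, h'⟩
    unfold af at h1
    push Not at h1
    refine le_trans (le_of_eq (H419.avg_congr fun p hp => ?_)) (h1 h)
    have h3 : dead al w R θ K (k + 1) p.1 p.2 ↔ dead al w R θ K k p.1 p.2 := by
      refine dead_agree fun h' => hA ?_
      rw [mem_product, mem_iv, mem_iv] at hp
      exact (afc_congr hal hp.1 hp.2).1 h'
    have h4 : hv w R (dead al w R θ K k) k p.1 p.2 ↔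
        hv w R (dead al w R θ K (k + 1)) k p.1 p.2 := by
      unfold hv
      rw [h3]
    rw [if_congr h4 rfl rfl]

theorem child_avg (hw : ∀ z y, 0 ≤ w z y) (k : ℕ) (z y : ℤ) :
    avg (iv k (ix k z)) (fun z' => w z' y) ≤
      2 * avg (iv (k + 1) (ix (k + 1) z)) (fun z' => w z' y) := by
  refine H419.avg_le_of_subset (PL.H315.iv_sub k z) (by norm_num) ?_ fun _ _ => hw _ _
  rw [PL.H315.card_iv, PL.H315.card_iv]
  push_cast
  rw [pow_succ]
  linarith

include hal in
/-- **(4)**, time `k + 1`, scale `k`: the columns of average more than `2 R` which are left on a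
square whose parent is alive -/
theorem heavy_next (hw : ∀ z y, 0 ≤ w z y) (hθ : 0 ≤ θ) {k : ℕ} (hk : k < K) {z y : ℤ}
    (h : al (k + 1) z y) :
    avg (iv k (ix k z) ×ˢ iv k (ix k y)) (fun p =>
      if hv w (2 * R) (dead al w R θ K (k + 1)) k p.1 p.2 then w p.1 p.2 else 0) ≤ 4 * θ := by
  have h1 := heavy_now (w := w) (R := R) hal hθ (Nat.succ_le_of_lt hk) h
  have h2 : ∀ p : ℤ × ℤ, (if hv w (2 * R) (dead al w R θ K (k + 1)) k p.1 p.2 then w p.1 p.2
      else 0) ≤ if hv w R (dead al w R θ K (k + 1)) (k + 1) p.1 p.2 then w p.1 p.2 else 0 := by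
    intro p
    by_cases h3 : hv w (2 * R) (dead al w R θ K (k + 1)) k p.1 p.2
    · have h4 : hv w R (dead al w R θ K (k + 1)) (k + 1) p.1 p.2 := by
        refine ⟨h3.1, ?_⟩
        have h5 := child_avg hw k p.1 p.2
        have h6 := h3.2
        linarith
      rw [if_pos h3, if_pos h4]
    · rw [if_neg h3]
      split_ifs
      · exact hw _ _
      · exact le_rfl
  have h3 : ∀ p : ℤ × ℤ, 0 ≤ if hv w R (dead al w R θ K (k + 1)) (k + 1) p.1 p.2 then w p.1 p.2
      else 0 := by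
    intro p
    split_ifs
    · exact hw _ _
    · exact le_rfl
  refine (H419.avg_mono fun p _ => h2 p).trans ?_
  refine le_trans ?_ (mul_le_mul_of_nonneg_left h1 (by norm_num : (0 : ℝ) ≤ 4))
  refine H419.avg_le_of_subset ?_ (by norm_num) ?_ fun p _ => h3 p
  · exact product_subset_product (PL.H315.iv_sub k z) (PL.H315.iv_sub k y)
  · rw [card_product, card_product, card_iv, card_iv, card_iv, card_iv]
    push_cast
    rw [pow_succ]
    ring_nf
    exact le_rfl

/-! ### The removed cells of one column -/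

include hal in
/-- **(5)** -/
theorem removed (hw : ∀ z y, 0 ≤ w z y) (hR : 0 < R) (X y : ℤ) :
    ∑ j ∈ range (K + 1), ∑ a ∈ iv (K - j) X,
      (if new al w R θ K j (2 ^ j * a) y then (2 : ℝ) ^ j else 0) ≤
      R⁻¹ * ∑ z ∈ iv K X, w z y := by
  have h1 : ∀ j a, (if new al w R θ K j (2 ^ j * a) y then (2 : ℝ) ^ j else 0) ≤
      R⁻¹ * ∑ z ∈ iv j a, ind (new al w R θ K j z y) * w z y := by
    intro j a
    have h0 : 0 ≤ ∑ z ∈ iv j a, ind (new al w R θ K j z y) * w z y :=
      sum_nonneg fun z _ => mul_nonneg (ind_nonneg _) (hw z y)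
    split_ifs with h
    · have h2 := h.2.2
      unfold avg at h2
      rw [ix_two_pow_mul, card_iv] at h2
      push_cast at h2
      have h3 : ∑ z ∈ iv j a, ind (new al w R θ K j z y) * w z y = ∑ z ∈ iv j a, w z y := by
        refine sum_congr rfl fun z hz => ?_
        unfold ind
        rw [if_pos ((new_congr hal y (corner j hz)).2 h), one_mul]
      rw [h3]
      have h4 : (0 : ℝ) < 2 ^ j := by positivity
      rw [inv_mul_eq_div, lt_div_iff₀ h4] at h2
      rw [inv_mul_eq_div, le_div_iff₀ hR]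
      linarith
    · exact mul_nonneg (inv_nonneg.2 hR.le) h0
  have h2 : ∑ j ∈ range (K + 1), ∑ a ∈ iv (K - j) X,
      (if new al w R θ K j (2 ^ j * a) y then (2 : ℝ) ^ j else 0) ≤
      ∑ j ∈ range (K + 1), R⁻¹ * ∑ z ∈ iv K X, ind (new al w R θ K j z y) * w z y := by
    refine sum_le_sum fun j hj => ?_
    have hjK : j ≤ K := by have := mem_range.1 hj; omega
    rw [← H804.iv_sum hjK X, mul_sum]
    exact sum_le_sum fun a _ => h1 j a
  refine h2.trans ?_
  rw [← mul_sum]
  refine mul_le_mul_of_nonneg_left ?_ (inv_nonneg.2 hR.le)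
  rw [sum_comm]
  refine sum_le_sum fun z _ => ?_
  rw [← sum_mul]
  exact mul_le_of_le_one_left (hw z y) (sum_ind_le_one (fun k l => new_disj k l) _)

/-- the removed columns of a box of scale `j` -/
def Hs (al : ℕ → ℤ → ℤ → Prop) (w : ℤ → ℤ → ℝ) (R θ : ℝ) (K j : ℕ) (a b : ℤ) : Finset ℤ :=
  (iv j b).filter fun y => new al w R θ K j (2 ^ j * a) y

include hal in
theorem mem_Hs {j : ℕ} {a b z y : ℤ} (hz : ix j z = a) (hy : ix j y = b) :
    y ∈ Hs al w R θ K j a b ↔ new al w R θ K j z y := by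
  unfold Hs
  rw [mem_filter, mem_iv]
  rw [new_congr hal (z := 2 ^ j * a) (z' := z) y (by rw [ix_two_pow_mul, hz])]
  exact ⟨fun h => h.2, fun h => ⟨hy, h⟩⟩

include hal in
theorem afc_of_Hs {j : ℕ} {a b : ℤ} (h : (Hs al w R θ K j a b).Nonempty) :
    afc al w R θ K j (2 ^ j * a) (2 ^ j * b) := by
  obtain ⟨y, hy⟩ := h
  unfold Hs at hy
  rw [mem_filter] at hy
  exact (afc_congr hal rfl (corner j hy.1)).1 hy.2.1

include hal in
/-- the number of the boxes with removed columns -/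
theorem pack_Hs (hw : ∀ z y, 0 ≤ w z y) (hθ : 0 < θ)
    (hup : ∀ k < K, ∀ z y, al k z y → al (k + 1) z y) {m : ℝ} (hm0 : 0 ≤ m)
    (hm : ∀ k ≤ K, ∀ z y, al k z y →
      avg (iv k (ix k z) ×ˢ iv k (ix k y)) (fun p => w p.1 p.2) ≤ m)
    (K' : ℕ) (r s : ℤ) :
    ∑ k ∈ range (K' + 1), ∑ a ∈ iv (K' - k) r, ∑ b ∈ iv (K' - k) s,
      (if (Hs al w R θ K k a b).Nonempty then (4 : ℝ) ^ k else 0) ≤ m / θ * 4 ^ K' := by
  refine le_trans ?_ (pack (R := R) hal hw hθ hup hm0 hm K' r s)
  refine sum_le_sum fun k _ => sum_le_sum fun a _ => sum_le_sum fun b _ => ?_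
  by_cases h : (Hs al w R θ K k a b).Nonempty
  · rw [if_pos h, if_pos (afc_of_Hs hal h)]
  · rw [if_neg h]
    split_ifs
    · positivity
    · exact le_rfl

include hal in
/-- the number of the removed cells of one column -/
theorem count_Hs (hw : ∀ z y, 0 ≤ w z y) (hR : 0 < R) (X y : ℤ) :
    ∑ j ∈ range (K + 1), ∑ a ∈ iv (K - j) X,
      (if ∃ b, y ∈ Hs al w R θ K j a b then (2 : ℝ) ^ j else 0) ≤
      R⁻¹ * ∑ z ∈ iv K X, w z y := by
  refine le_trans ?_ (removed (θ := θ) hal hw hR X y)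
  refine sum_le_sum fun j _ => sum_le_sum fun a _ => ?_
  by_cases h : ∃ b, y ∈ Hs al w R θ K j a b
  · obtain ⟨b, hb⟩ := h
    have h1 : new al w R θ K j (2 ^ j * a) y := by
      unfold Hs at hb
      exact (mem_filter.1 hb).2
    rw [if_pos ⟨b, hb⟩, if_pos h1]
  · rw [if_neg h]
    split_ifs
    · positivity
    · exact le_rfl

/-! ### The killed slot -/

/-- a slot killed on a family of pairs `(z, y)` (the second and the third variable) -/
def kill (D : ℕ → ℤ → ℤ → Prop) (F : ℕ → Pt → ℝ) (k : ℕ) (p : Pt) : ℝ :=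
  if D k p.2.1 p.2.2 then 0 else F k p

theorem kill_sq_le (D : ℕ → ℤ → ℤ → Prop) (F : ℕ → Pt → ℝ) (k : ℕ) (p : Pt) :
    kill D F k p ^ 2 ≤ F k p ^ 2 := by
  unfold kill
  split_ifs
  · rw [zero_pow (by norm_num)]
    exact sq_nonneg _
  · exact le_rfl

theorem BUn_kill (D : ℕ → ℤ → ℤ → Prop) {n : ℕ} {t : ℝ} (ht : 0 ≤ t) {F : ℕ → Pt → ℝ}
    (h : BUn n t F) : BUn n t (kill D F) := by
  intro k hk q u
  have h1 := h k hk q (u.1, u.2.1, fun p => (if D (k + 1) p.1 p.2 then 0 else 1) * u.2.2 p)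
  have h2 : ∀ y : Pt, kill D F (k + 1) y * atm u y = F (k + 1) y *
      atm (u.1, u.2.1, fun p => (if D (k + 1) p.1 p.2 then 0 else 1) * u.2.2 p) y := by
    intro y
    unfold kill atm e12 e13 e23
    by_cases h3 : D (k + 1) y.2.1 y.2.2
    · simp only [if_pos h3]
      ring
    · simp only [if_neg h3]
      ring
  rw [sum_congr rfl fun y _ => h2 y]
  refine h1.trans (H419.wP_mono ht (fun p _ => le_rfl) (fun p _ => le_rfl) fun p _ => ?_)
  show |(if D (k + 1) p.2.1 p.2.2 then (0 : ℝ) else 1) * u.2.2 (p.2.1, p.2.2)| ≤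
    |u.2.2 (p.2.1, p.2.2)|
  split_ifs
  · rw [zero_mul, abs_zero]
    exact abs_nonneg _
  · rw [one_mul]

theorem BSl_kill {D : ℕ → ℤ → ℤ → Prop} {Af : ℕ → ℤ → ℤ → Prop}
    (hD : ∀ k z y, ¬ Af k (ix k z) (ix k y) → (D (k + 1) z y ↔ D k z y)) {c : ℝ}
    (hp : ∀ K r s, ∑ k ∈ range (K + 1), ∑ r' ∈ iv (K - k) r, ∑ s' ∈ iv (K - k) s,
      (if Af k r' s' then (4 : ℝ) ^ k else 0) ≤ c * 4 ^ K)
    {n : ℕ} {e cP : ℝ} {F : ℕ → Pt → ℝ} {Q : ℕ → Pt → Prop} (hB : BSl n e cP F Q) :
    BSl n e (cP + c) (kill D F) (fun k m => Q k m ∨ Af k m.2.1 m.2.2) where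
  agree := by
    intro k hk hkn m hm y hy
    push Not at hm
    have h1 := hB.agree k hk hkn m hm.1 y hy
    rw [mem_cb] at hy
    have h2 : D (k + 1) y.2.1 y.2.2 ↔ D k y.2.1 y.2.2 := by
      refine hD k _ _ ?_
      have h3 : ix k y.2.1 = m.2.1 := congrArg (fun p : Pt => p.2.1) hy
      have h4 : ix k y.2.2 = m.2.2 := congrArg (fun p : Pt => p.2.2) hy
      rw [h3, h4]
      exact hm.2
    unfold kill
    rw [if_congr h2 rfl rfl, h1]
  pack := by
    intro x0 K' hK' r s
    have h1 := hB.pack x0 K' hK' r s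
    have h2 := hp K' r s
    have h3 : ∑ k ∈ range (K' + 1), ∑ r' ∈ iv (K' - k) r, ∑ s' ∈ iv (K' - k) s,
        (if Q k (ix k x0, r', s') ∨ Af k r' s' then (4 : ℝ) ^ k else 0) ≤
        ∑ k ∈ range (K' + 1), ∑ r' ∈ iv (K' - k) r, ∑ s' ∈ iv (K' - k) s,
        ((if Q k (ix k x0, r', s') then (4 : ℝ) ^ k else 0) +
          (if Af k r' s' then (4 : ℝ) ^ k else 0)) := by
      refine sum_le_sum fun k _ => sum_le_sum fun r' _ => sum_le_sum fun s' _ => ?_
      have h4 : (0 : ℝ) < 4 ^ k := by positivity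
      split_ifs <;> first | linarith | tauto
    simp only [sum_add_distrib] at h3
    refine (le_of_eq ?_).trans (h3.trans (?_ : _ ≤ (cP + c) * 4 ^ K'))
    · refine sum_congr rfl fun k _ => sum_congr rfl fun r' _ => sum_congr rfl fun s' _ => ?_
      by_cases h4 : Q k (ix k x0, r', s') ∨ Af k r' s'
      · rw [if_pos h4, if_pos h4]
      · rw [if_neg h4, if_neg h4]
    · rw [add_mul]
      exact add_le_add h1 h2
  l0 := fun k hk m x y => (sum_le_sum fun z _ => kill_sq_le D F (k + 1) (z, x, y)).trans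
    (hB.l0 k hk m x y)
  l1 := fun k hk m z y => (sum_le_sum fun x _ => kill_sq_le D F (k + 1) (z, x, y)).trans
    (hB.l1 k hk m z y)
  l2 := fun k hk m z x => (sum_le_sum fun y _ => kill_sq_le D F (k + 1) (z, x, y)).trans
    (hB.l2 k hk m z x)

include hal in
/-- **(6) the slot `F3` killed on the removed columns is a uniform slot.** -/
theorem US_kill (hw : ∀ z y, 0 ≤ w z y) (hθ : 0 < θ)
    (hup : ∀ k < K, ∀ z y, al k z y → al (k + 1) z y) {m : ℝ} (hm0 : 0 ≤ m)
    (hm : ∀ k ≤ K, ∀ z y, al k z y →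
      avg (iv k (ix k z) ×ˢ iv k (ix k y)) (fun p => w p.1 p.2) ≤ m)
    {n : ℕ} {t e cP : ℝ} {F : ℕ → Pt → ℝ} (hF : US n t e cP F) :
    US n t e (cP + m / θ) (kill (dead al w R θ K) F) := by
  obtain ⟨h1, h2, h3, Q, h4⟩ := hF
  refine ⟨h1, h2, BUn_kill _ h1 h3, _, BSl_kill
    (Af := fun k r s => afc al w R θ K k (2 ^ k * r) (2 ^ k * s)) ?_
    (pack hal hw hθ hup hm0 hm) h4⟩
  intro k z y h
  refine dead_agree fun h' => h ?_
  exact (afc_congr hal (by rw [ix_two_pow_mul]) (by rw [ix_two_pow_mul])).2 h'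

/-! ### The split -/

theorem sum_new (k : ℕ) (z y : ℤ) (c : ℝ) :
    ∑ j ∈ Icc k K, (if new al w R θ K j z y then c else 0) =
      if dead al w R θ K k z y then c else 0 := by
  by_cases h : dead al w R θ K k z y
  · obtain ⟨j, hj, hn⟩ := dead_new.1 h
    rw [if_pos h, sum_eq_single j]
    · rw [if_pos hn]
    · intro l _ hl
      exact if_neg fun h' => hl (new_disj l j h' hn)
    · intro h'
      exact absurd (mem_Icc.2 ⟨hj, hn.1.1⟩) h'
  · rw [if_neg h]
    refine sum_eq_zero fun j hj => if_neg fun h' => h (dead_new.2 ⟨j, (mem_Icc.1 hj).1, h'⟩)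

variable {ι : Type*} [Fintype ι] (g : ℤ → ℤ → ℝ) (u v : ℤ → ℤ → ι → ℝ)

theorem cmp_ite (H : Finset ℤ) (y : Pt) :
    H305.cmp (fun a b => if a ∈ H then g a b else 0) (fun a b => if b ∈ H then u a b else 0) v y =
      if y.2.1 ∈ H then H305.cmp g u v y else 0 := by
  unfold H305.cmp
  by_cases h : y.2.1 ∈ H
  · simp only [if_pos h]
  · simp only [if_neg h, zero_mul]

include hal in
/-- one box -/
theorem split_box {k : ℕ} (m : Pt) (o : ℤ) (F1 F2 F3 : Pt → ℝ) :
    |loc k (bx0 o m) (H305.cmp g u v) F1 F2 F3| ≤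
      |loc k (bx0 o m) (H305.cmp g u v) F1 F2
        (fun p => if dead al w R θ K k p.2.1 p.2.2 then 0 else F3 p)| +
      ∑ j ∈ Icc k K, |loc k (bx0 o m) (H305.cmp
        (fun a b => if a ∈ Hs al w R θ K j (ix (j - k) m.1) (ix (j - k) m.2.1) then g a b else 0)
        (fun a b => if b ∈ Hs al w R θ K j (ix (j - k) m.1) (ix (j - k) m.2.1) then u a b else 0)
        v) F1 F2 F3| := by
  have key : loc k (bx0 o m) (H305.cmp g u v) F1 F2 F3 =
      loc k (bx0 o m) (H305.cmp g u v) F1 F2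
        (fun p => if dead al w R θ K k p.2.1 p.2.2 then 0 else F3 p) +
      ∑ j ∈ Icc k K, loc k (bx0 o m) (H305.cmp
        (fun a b => if a ∈ Hs al w R θ K j (ix (j - k) m.1) (ix (j - k) m.2.1) then g a b else 0)
        (fun a b => if b ∈ Hs al w R θ K j (ix (j - k) m.1) (ix (j - k) m.2.1) then u a b else 0)
        v) F1 F2 F3 := by
    have e : ∀ f : ℕ → ℤ → ℤ → ℤ → ℤ → ℝ, ∑ j ∈ Icc k K, ∑ x0 ∈ iv k (bx0 o m).1,
        ∑ x1 ∈ iv k (bx0 o m).2.1, ∑ x2 ∈ iv k (bx0 o m).2.2.1, ∑ x3 ∈ iv k (bx0 o m).2.2.2,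
        f j x0 x1 x2 x3 = ∑ x0 ∈ iv k (bx0 o m).1, ∑ x1 ∈ iv k (bx0 o m).2.1,
        ∑ x2 ∈ iv k (bx0 o m).2.2.1, ∑ x3 ∈ iv k (bx0 o m).2.2.2, ∑ j ∈ Icc k K,
        f j x0 x1 x2 x3 := by
      intro f
      rw [sum_comm]
      refine sum_congr rfl fun x0 _ => ?_
      rw [sum_comm]
      refine sum_congr rfl fun x1 _ => ?_
      rw [sum_comm]
      refine sum_congr rfl fun x2 _ => ?_
      rw [sum_comm]
    unfold loc
    rw [e, ← sum_add_distrib]
    refine sum_congr rfl fun x0 _ => ?_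
    rw [← sum_add_distrib]
    refine sum_congr rfl fun x1 hx1 => ?_
    rw [← sum_add_distrib]
    refine sum_congr rfl fun x2 hx2 => ?_
    rw [← sum_add_distrib]
    refine sum_congr rfl fun x3 _ => ?_
    have hx1' : ix k x1 = m.1 := mem_iv.1 hx1
    have hx2' : ix k x2 = m.2.1 := mem_iv.1 hx2
    unfold prd
    have h1 : ∀ j ∈ Icc k K, hs k x0 * hs k x1 * hs k x2 * hs k x3 * (H305.cmp
        (fun a b => if a ∈ Hs al w R θ K j (ix (j - k) m.1) (ix (j - k) m.2.1) then g a b else 0)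
        (fun a b => if b ∈ Hs al w R θ K j (ix (j - k) m.1) (ix (j - k) m.2.1) then u a b else 0)
        v (x1, x2, x3) * F1 (x0, x2, x3) * F2 (x0, x1, x3) * F3 (x0, x1, x2)) =
        if new al w R θ K j x1 x2 then hs k x0 * hs k x1 * hs k x2 * hs k x3 *
          (H305.cmp g u v (x1, x2, x3) * F1 (x0, x2, x3) * F2 (x0, x1, x3) * F3 (x0, x1, x2))
          else 0 := by
      intro j hj
      rw [mem_Icc] at hj
      rw [cmp_ite]
      have h2 : (x1, x2, x3).2.1 ∈ Hs al w R θ K j (ix (j - k) m.1) (ix (j - k) m.2.1) ↔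
          new al w R θ K j x1 x2 := by
        refine mem_Hs hal ?_ ?_
        · rw [← hx1', ix_ix, Nat.add_sub_cancel' hj.1]
        · rw [← hx2', ix_ix, Nat.add_sub_cancel' hj.1]
      rw [if_congr h2 rfl rfl]
      split_ifs <;> simp
    rw [sum_congr rfl h1, sum_new]
    by_cases h : dead al w R θ K k x1 x2
    · simp only [if_pos h]
      ring
    · simp only [if_neg h]
      ring
  rw [key]
  refine (abs_add_le _ _).trans (add_le_add le_rfl ?_)
  exact abs_sum_le_sum_abs _ _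

/-- the cost of the removed box of scale `j` and indices `m` -/
def rmv (A : ℕ → Pt → Prop) (al : ℕ → ℤ → ℤ → Prop) (w : ℤ → ℤ → ℝ) (R θ : ℝ) (K : ℕ) (o : ℤ)
    (F1 F2 F3 : ℕ → Pt → ℝ) (j : ℕ) (m : Pt) : ℝ :=
  cosA A o j (crn j m) (H305.cmp
    (fun a b => if a ∈ Hs al w R θ K j m.1 m.2.1 then g a b else 0)
    (fun a b => if b ∈ Hs al w R θ K j m.1 m.2.1 then u a b else 0) v)
    (fun k _ => F1 k) (fun k _ => F2 k) (fun k _ => F3 k)

include hal in
/-- **(7) The split**: the cost with the killed slot and the costs of the removed boxes. -/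
theorem split {A : ℕ → Pt → Prop} (hA : Her A) (o : ℤ) (x : Pt) (F1 F2 F3 : ℕ → Pt → ℝ) :
    cosA A o K x (H305.cmp g u v) (fun k _ => F1 k) (fun k _ => F2 k) (fun k _ => F3 k) ≤
      cosA A o K x (H305.cmp g u v) (fun k _ => F1 k) (fun k _ => F2 k)
        (fun k _ => kill (dead al w R θ K) F3 k) +
      ∑ j ∈ Icc 1 K, ∑ m ∈ cbs K (cx K x) j with A j (crn j m),
        rmv g u v A al w R θ K o F1 F2 F3 j m := by
  set φ : ℕ → ℕ → Pt → ℝ := fun j k m => |loc k (bx0 o m) (H305.cmp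
    (fun a b => if a ∈ Hs al w R θ K j (ix (j - k) m.1) (ix (j - k) m.2.1) then g a b else 0)
    (fun a b => if b ∈ Hs al w R θ K j (ix (j - k) m.1) (ix (j - k) m.2.1) then u a b else 0)
    v) (F1 k) (F2 k) (F3 k)| with hφ
  have h1 : cosA A o K x (H305.cmp g u v) (fun k _ => F1 k) (fun k _ => F2 k) (fun k _ => F3 k) ≤
      cosA A o K x (H305.cmp g u v) (fun k _ => F1 k) (fun k _ => F2 k)
        (fun k _ => kill (dead al w R θ K) F3 k) +
      ∑ k ∈ Icc 1 K, (2 ^ k : ℝ)⁻¹ * ∑ m ∈ cbs K (cx K x) k with A k (crn k m),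
        ∑ j ∈ Icc k K, φ j k m := by
    unfold cosA
    rw [← sum_add_distrib]
    refine sum_le_sum fun k _ => ?_
    rw [← mul_add, ← sum_add_distrib]
    refine mul_le_mul_of_nonneg_left ?_ (by positivity)
    exact sum_le_sum fun m _ => split_box hal g u v m o _ _ _
  refine h1.trans (add_le_add le_rfl ?_)
  have h2 : ∑ k ∈ Icc 1 K, (2 ^ k : ℝ)⁻¹ * ∑ m ∈ cbs K (cx K x) k with A k (crn k m),
      ∑ j ∈ Icc k K, φ j k m =
      ∑ j ∈ Icc 1 K, ∑ k ∈ Icc 1 j, (2 ^ k : ℝ)⁻¹ *
        ∑ m ∈ cbs K (cx K x) k with A k (crn k m), φ j k m := by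
    have e1 : ∀ k ∈ Icc 1 K, (2 ^ k : ℝ)⁻¹ * ∑ m ∈ cbs K (cx K x) k with A k (crn k m),
        ∑ j ∈ Icc k K, φ j k m = ∑ j ∈ Icc k K, (2 ^ k : ℝ)⁻¹ *
          ∑ m ∈ cbs K (cx K x) k with A k (crn k m), φ j k m := by
      intro k _
      rw [sum_comm, mul_sum]
    rw [sum_congr rfl e1]
    refine sum_comm' fun k j => ?_
    simp only [mem_Icc]
    omega
  rw [h2]
  refine sum_le_sum fun j hj => ?_
  rw [mem_Icc] at hj
  unfold rmv cosA
  rw [sum_comm]
  refine sum_le_sum fun k hk => ?_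
  rw [mem_Icc] at hk
  rw [← mul_sum]
  refine mul_le_mul_of_nonneg_left ?_ (by positivity)
  rw [sum_filter, sum_cbs_split hk.2 hj.2, sum_filter]
  refine sum_le_sum fun M _ => ?_
  by_cases hM : A j (crn j M)
  · rw [if_pos hM, cx_crn, sum_filter]
    refine le_of_eq (sum_congr rfl fun m hm => ?_)
    have h4 := cx_of_mem_cbs hm
    have h5 : ix (j - k) m.1 = M.1 := congrArg (fun p : Pt => p.1) h4
    have h6 : ix (j - k) m.2.1 = M.2.1 := congrArg (fun p : Pt => p.2.1) h4
    rw [hφ]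
    simp only [h5, h6]
  · rw [if_neg hM]
    refine le_of_eq (sum_eq_zero fun m hm => if_neg fun h => hM ?_)
    have h7 := hA k j hk.2 m h
    rwa [cx_of_mem_cbs hm] at h7

end facts

end

end Vale.Agent.P141.H811
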