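import Vale.Agent.P141.H811.ColCl
import Vale.Agent.P141.H498.ColPr

/-!
# P141, line (A), item D5: the removed columns of one row class

`ColCl` for the data `H305.Cls`: `w z y = |u z y|²`, alive squares = not stopped squares of the pair
(label vertex, split vertex) inside the root.

* `alc`, `sq`, `dead'`, `new'`, `afc'` : the instance;
* `US_cls` : the killed slot is uniform, constant `cP + Λ s / θ`;
* `col_next` : the columns of average more than `2 R` which are left carry at most `4 θ` on every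
  square whose parent is alive (the hypothesis of `H338.capB_T`);
* `split_pt` : the split in the form of `H498.removed_price`;
* `cut_price` : **the cost is at most the cost with the killed slot plus the price of the removed
  columns**.
-/

namespace Vale.Agent.P141.H811

open Finset Vale.Agent.P141.PL
open Vale.Agent.P141.PL.H315 (cube3 atm Tri A2 avg avg_nonneg e12 e13 e23)
open Vale.Agent.P141.PL.H560 (cbs bx0)
open Vale.Agent.P141.PL.H317 (crn)
open Vale.Agent.P141.H922 (wP)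
open Vale.Agent.P141.H48 (US ES BSl BUn sst cst ind ind_nonneg sum_ind_le_one)
open Vale.Agent.P141.H579 (cosA cosA_mono cosA_true cx_crn)
open Vale.Agent.P141.H572 (cosF)
open Vale.Agent.P141.H769 (ix_of_le corner sq_pts ix_two_pow_mul sst_congr sst_anti)
open Vale.Agent.P141.H305 (Cls)

noncomputable section

open scoped Classical

/-! ### The instance -/

/-- the squares (label vertex, split vertex) which are not stopped -/
def alc (Λ : ℝ) (a : ℤ × ℤ → ℝ) (K : ℕ) (x : Pt) (k : ℕ) (z y : ℤ) : Prop :=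
  k ≤ K ∧ ix K z = ix K x.1 ∧ ix K y = ix K x.2.1 ∧ ¬ sst Λ a K k z y

theorem alc_congr (Λ : ℝ) (a : ℤ × ℤ → ℝ) (K : ℕ) (x : Pt) (k : ℕ) (z z' y y' : ℤ)
    (h1 : ix k z = ix k z') (h2 : ix k y = ix k y') :
    alc Λ a K x k z y ↔ alc Λ a K x k z' y' := by
  unfold alc
  by_cases hk : k ≤ K
  · rw [ix_of_le hk h1, ix_of_le hk h2, sst_congr h1 h2]
  · constructor <;> exact fun h => absurd h.1 hk

theorem alc_up (Λ : ℝ) (a : ℤ × ℤ → ℝ) (K : ℕ) (x : Pt) :
    ∀ k < K, ∀ z y, alc Λ a K x k z y → alc Λ a K x (k + 1) z y :=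
  fun k hk _ _ h => ⟨hk, h.2.1, h.2.2.1, fun h' => h.2.2.2 (sst_anti (Nat.le_succ k) h')⟩

section label

variable {ι : Type*} [Fintype ι]

/-- the density -/
def sq (u : ℤ → ℤ → ι → ℝ) (z y : ℤ) : ℝ := u z y ⬝ᵥ u z y

theorem sq_nonneg' (u : ℤ → ℤ → ι → ℝ) (z y : ℤ) : 0 ≤ sq u z y :=
  Finset.sum_nonneg fun _ _ => mul_self_nonneg _

/-- **the removed columns** of the data `u`, majorant `a`, threshold `Λ` -/
abbrev dead' (Λ : ℝ) (a : ℤ × ℤ → ℝ) (x : Pt) (u : ℤ → ℤ → ι → ℝ) (R θ : ℝ) (K : ℕ) :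
    ℕ → ℤ → ℤ → Prop := dead (alc Λ a K x) (sq u) R θ K

/-- the columns removed at one scale -/
abbrev new' (Λ : ℝ) (a : ℤ × ℤ → ℝ) (x : Pt) (u : ℤ → ℤ → ι → ℝ) (R θ : ℝ) (K : ℕ) :
    ℕ → ℤ → ℤ → Prop := new (alc Λ a K x) (sq u) R θ K

/-- the affected squares -/
abbrev afc' (Λ : ℝ) (a : ℤ × ℤ → ℝ) (x : Pt) (u : ℤ → ℤ → ι → ℝ) (R θ : ℝ) (K : ℕ) :
    ℕ → ℤ → ℤ → Prop := afc (alc Λ a K x) (sq u) R θ K

end label

section cls

variable {ι : Type} [Fintype ι] {K : ℕ} {x : Pt} {s r W : ℝ} {U : Tri} {g : ℤ → ℤ → ℝ}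
  {u v : ℤ → ℤ → ι → ℝ}

theorem mem_root {K : ℕ} {a b : ℤ} (h : ix K a = ix K b) : a ∈ PL.H315.iv K b := by
  rw [H769.iv_pt, mem_iv]
  exact h

theorem root_of {k K : ℕ} (hk : k ≤ K) {z z' b : ℤ} (h : z' ∈ iv k (ix k z)) (hz : ix K z = ix K b) :
    z' ∈ PL.H315.iv K b := by
  rw [mem_iv] at h
  exact mem_root ((ix_of_le hk h).trans hz)

/-- local masses -/
theorem mass_cls (C : Cls K x s r W U g u v) {Λ : ℝ} (hΛ : 0 ≤ Λ) :
    ∀ k ≤ K, ∀ z y, alc Λ U.1 K x k z y →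
      avg (iv k (ix k z) ×ˢ iv k (ix k y)) (fun p => sq u p.1 p.2) ≤ Λ * s := by
  intro k hk z y h
  have h1 : avg (iv k (ix k z) ×ˢ iv k (ix k y)) (fun p => sq u p.1 p.2) ≤ A2 k U.1 z y := by
    refine H419.avg_mono fun p hp => ?_
    rw [mem_product] at hp
    exact C.u_le p.1 (root_of hk hp.1 h.2.1) p.2 (root_of hk hp.2 h.2.2.1)
  have h2 := (H579.not_sst h.2.2.2 le_rfl hk).1
  have h3 : A2 K U.1 z y = A2 K U.1 x.1 x.2.1 := by
    unfold A2
    rw [H769.iv_pt, H769.iv_pt, H769.iv_pt, H769.iv_pt, h.2.1, h.2.2.1]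
  rw [h3] at h2
  exact h1.trans (h2.trans (mul_le_mul_of_nonneg_left C.U_u2 hΛ))

/-- **The killed slot.** -/
theorem US_cls (C : Cls K x s r W U g u v) {Λ R θ : ℝ} (hs : 0 ≤ s) (hΛ : 0 ≤ Λ) (hθ : 0 < θ)
    {n : ℕ} {t e cP : ℝ} {F : ℕ → Pt → ℝ} (hF : US n t e cP F) :
    US n t e (cP + Λ * s / θ) (kill (dead' Λ U.1 x u R θ K) F) :=
  US_kill (alc_congr Λ U.1 K x) (sq_nonneg' u) hθ (alc_up Λ U.1 K x) (mul_nonneg hΛ hs)
    (mass_cls C hΛ) hF

/-- no column of the root is heavy -/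
theorem top_col (C : Cls K x s r W U g u v) {R : ℝ} (hR : √s / r ≤ R) {z y : ℤ}
    (hz : ix K z = ix K x.1) (hy : ix K y = ix K x.2.1) :
    avg (iv K (ix K z)) (fun z' => sq u z' y) ≤ 2 * R := by
  have h := C.u_col y (mem_root hy)
  rw [H769.iv_pt, ← hz] at h
  calc avg (iv K (ix K z)) (fun z' => sq u z' y) ≤ 2 * √s / r := h
    _ = 2 * (√s / r) := by ring
    _ ≤ 2 * R := by linarith

/-- the heavy columns which are left, time `k + 1`, scale `k ≤ K` -/
theorem heavy_cls (C : Cls K x s r W U g u v) {Λ R θ : ℝ} (hR : √s / r ≤ R) (hθ : 0 ≤ θ)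
    {k : ℕ} (hk : k ≤ K) {z y : ℤ} (hz : ix K z = ix K x.1) (hy : ix K y = ix K x.2.1)
    (ha : k < K → ¬ sst Λ U.1 K (k + 1) z y) :
    avg (iv k (ix k z) ×ˢ iv k (ix k y)) (fun p =>
      if hv (sq u) (2 * R) (dead' Λ U.1 x u R θ K (k + 1)) k p.1 p.2 then sq u p.1 p.2 else 0) ≤
      4 * θ := by
  rcases lt_or_eq_of_le hk with hlt | rfl
  · exact heavy_next (alc_congr Λ U.1 K x) (sq_nonneg' u) hθ hlt ⟨hlt, hz, hy, ha hlt⟩
  · refine le_trans (le_of_eq ?_) (by linarith : (0 : ℝ) ≤ 4 * θ)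
    rw [avg_sq, sum_eq_zero, mul_zero]
    intro a ha'
    refine sum_eq_zero fun b hb => if_neg fun h => ?_
    rw [mem_iv] at ha' hb
    exact absurd h.2 (not_lt.2 (top_col C hR (ha'.trans hz) (hb.trans hy)))

/-- **the columns which are left**, in the letters of `H338.clD`: on every square of scale `k ≤ K`
whose parent is alive -/
theorem col_next (C : Cls K x s r W U g u v) {Λ R θ : ℝ} (hR : √s / r ≤ R)
    (hθ : 0 ≤ θ) {k : ℕ} (hk : k ≤ K) {z y : ℤ} (hz : ix K z = ix K x.1)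
    (hy : ix K y = ix K x.2.1) (ha : k < K → ¬ sst Λ U.1 K (k + 1) z y) :
    (avg (iv k (ix k y)) fun y' =>
      if 2 * R < (avg (iv k (ix k z)) fun a =>
          if dead' Λ U.1 x u R θ K (k + 1) a y' then 0 else u a y' ⬝ᵥ u a y')
        then (avg (iv k (ix k z)) fun a =>
          if dead' Λ U.1 x u R θ K (k + 1) a y' then 0 else u a y' ⬝ᵥ u a y') else 0) ≤
      4 * θ := by
  refine le_trans (le_of_eq ?_) (heavy_cls C hR hθ hk hz hy ha)
  rw [H550.avg_prod, H550.avg_comm]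
  refine H419.avg_congr fun y' _ => ?_
  have hcong : ∀ a ∈ iv k (ix k z), (dead' Λ U.1 x u R θ K (k + 1) a y' ↔
      dead' Λ U.1 x u R θ K (k + 1) z y') := fun a ha' =>
    dead_congr (alc_congr Λ U.1 K x) y' (ix_of_le (Nat.le_succ k) (mem_iv.1 ha'))
  by_cases hd : dead' Λ U.1 x u R θ K (k + 1) z y'
  · have e1 : (avg (iv k (ix k z)) fun a =>
        if dead' Λ U.1 x u R θ K (k + 1) a y' then 0 else u a y' ⬝ᵥ u a y') = 0 := by
      rw [H419.avg_congr fun a ha' => if_pos ((hcong a ha').2 hd)]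
      unfold avg
      simp
    have e2 : (avg (iv k (ix k z)) fun a =>
        if hv (sq u) (2 * R) (dead' Λ U.1 x u R θ K (k + 1)) k (a, y').1 (a, y').2
          then sq u (a, y').1 (a, y').2 else 0) = 0 := by
      rw [H419.avg_congr fun a ha' => if_neg fun h => h.1 ((hcong a ha').2 hd)]
      unfold avg
      simp
    rw [e1, e2]
    split_ifs <;> rfl
  · have e1 : (avg (iv k (ix k z)) fun a =>
        if dead' Λ U.1 x u R θ K (k + 1) a y' then 0 else u a y' ⬝ᵥ u a y') =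
        avg (iv k (ix k z)) fun a => sq u a y' :=
      H419.avg_congr fun a ha' => if_neg fun h => hd ((hcong a ha').1 h)
    rw [e1]
    have e3 : ∀ a ∈ iv k (ix k z), (hv (sq u) (2 * R) (dead' Λ U.1 x u R θ K (k + 1)) k a y' ↔
        2 * R < avg (iv k (ix k z)) fun a => sq u a y') := by
      intro a ha'
      unfold hv
      rw [hcong a ha', mem_iv.1 ha']
      exact ⟨fun h => h.2, fun h => ⟨hd, h⟩⟩
    by_cases h2 : 2 * R < avg (iv k (ix k z)) fun a => sq u a y'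
    · rw [if_pos h2]
      exact H419.avg_congr fun a ha' => (if_pos ((e3 a ha').2 h2)).symm
    · rw [if_neg h2]
      rw [H419.avg_congr fun a ha' => if_neg fun h => h2 ((e3 a ha').1 h)]
      unfold avg
      simp

/-! ### The counts -/

theorem sum_pts_ind (K : ℕ) (R S : ℤ) {j : ℕ} (hj : j ≤ K) (A : ℤ → ℤ → Prop)
    (hA : ∀ z z' y y', ix j z = ix j z' → ix j y = ix j y' → (A z y ↔ A z' y')) :
    (((iv K R ×ˢ iv K S).filter fun p => A p.1 p.2).card : ℝ) =
      ∑ a ∈ iv (K - j) R, ∑ b ∈ iv (K - j) S, if A (2 ^ j * a) (2 ^ j * b) then (4 : ℝ) ^ j else 0 := by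
  have h1 : (((iv K R ×ˢ iv K S).filter fun p => A p.1 p.2).card : ℝ) =
      ∑ z ∈ iv K R, ∑ y ∈ iv K S, ind (A z y) := by
    rw [card_filter]
    push_cast
    rw [sum_product]
    rfl
  rw [h1, ← sq_pts hj R S]
  refine sum_congr rfl fun a _ => sum_congr rfl fun b _ => ?_
  have h2 : ∀ z ∈ iv j a, ∀ y ∈ iv j b, ind (A z y) = ind (A (2 ^ j * a) (2 ^ j * b)) := by
    intro z hz y hy
    unfold ind
    rw [if_congr (hA z _ y _ (corner j hz) (corner j hy)) rfl rfl]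
  rw [sum_congr rfl fun z hz => sum_congr rfl fun y hy => h2 z hz y hy]
  simp only [sum_const, card_iv, nsmul_eq_mul]
  have h3 : (2 : ℝ) ^ j * 2 ^ j = 4 ^ j := by rw [← mul_pow]; norm_num
  unfold ind
  split_ifs
  · push_cast
    rw [mul_one, h3]
  · simp

theorem sum_pts_ind1 (K : ℕ) (R : ℤ) {j : ℕ} (hj : j ≤ K) (A : ℤ → Prop)
    (hA : ∀ z z', ix j z = ix j z' → (A z ↔ A z')) :
    (((iv K R).filter fun p => A p).card : ℝ) =
      ∑ a ∈ iv (K - j) R, if A (2 ^ j * a) then (2 : ℝ) ^ j else 0 := by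
  have h1 : (((iv K R).filter fun p => A p).card : ℝ) = ∑ z ∈ iv K R, ind (A z) := by
    rw [card_filter]
    push_cast
    rfl
  rw [h1, ← H804.iv_sum hj R]
  refine sum_congr rfl fun a _ => ?_
  have h2 : ∀ z ∈ iv j a, ind (A z) = ind (A (2 ^ j * a)) := by
    intro z hz
    unfold ind
    rw [if_congr (hA z _ (corner j hz)) rfl rfl]
  rw [sum_congr rfl fun z hz => h2 z hz]
  simp only [sum_const, card_iv, nsmul_eq_mul]
  unfold ind
  split_ifs
  · push_cast
    rw [mul_one]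
  · simp

/-- the count of the affected squares -/
theorem count_N (C : Cls K x s r W U g u v) {Λ R θ : ℝ} (hs : 0 ≤ s) (hΛ : 0 ≤ Λ) (hθ : 0 < θ) :
    ∑ j ∈ range (K + 1),
      (((PL.H315.iv K x.1 ×ˢ PL.H315.iv K x.2.1).filter fun p =>
        afc' Λ U.1 x u R θ K j p.1 p.2).card : ℝ) ≤ Λ * s / θ * 4 ^ K := by
  have h1 := pack (R := R) (alc_congr Λ U.1 K x) (sq_nonneg' u) hθ (alc_up Λ U.1 K x)
    (mul_nonneg hΛ hs) (mass_cls C hΛ) K (ix K x.1) (ix K x.2.1)
  refine le_trans (le_of_eq ?_) h1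
  refine sum_congr rfl fun j hj => ?_
  have hjK : j ≤ K := by have := mem_range.1 hj; omega
  exact sum_pts_ind K _ _ hjK (afc' Λ U.1 x u R θ K j)
    fun z z' y y' h1 h2 => afc_congr (alc_congr Λ U.1 K x) h1 h2

/-- the count of the removed cells of one column -/
theorem count_ρ (C : Cls K x s r W U g u v) {Λ R θ : ℝ} (hR : 0 < R) :
    ∀ y ∈ PL.H315.iv K x.2.1, ∑ j ∈ range (K + 1),
      (((PL.H315.iv K x.1).filter fun a => new' Λ U.1 x u R θ K j a y).card : ℝ) ≤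
      2 * √s / (r * R) * 2 ^ K := by
  intro y hy
  have h1 := removed (K := K) (θ := θ) (alc_congr Λ U.1 K x) (sq_nonneg' u) hR (ix K x.1) y
  have h2 : ∑ z ∈ iv K (ix K x.1), sq u z y ≤ 2 ^ K * (2 * √s / r) := by
    have h3 := C.u_col y hy
    rw [H769.iv_pt] at h3
    unfold avg at h3
    rw [card_iv] at h3
    push_cast at h3
    rwa [inv_mul_le_iff₀ (by positivity)] at h3
  refine le_trans (le_of_eq ?_) (h1.trans
    ((mul_le_mul_of_nonneg_left h2 (inv_nonneg.2 hR.le)).trans (le_of_eq ?_)))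
  · refine sum_congr rfl fun j hj => ?_
    have hjK : j ≤ K := by have := mem_range.1 hj; omega
    exact sum_pts_ind1 K _ hjK (fun a => new' Λ U.1 x u R θ K j a y)
      fun z z' h1 => new_congr (alc_congr Λ U.1 K x) y h1
  · rw [show 2 * √s / (r * R) = 2 * √s / r * R⁻¹ by rw [div_mul_eq_div_div, div_eq_mul_inv _ R]]
    ring

/-! ### The split in points -/

/-- the removed columns of the gauge -/
def gH (al : ℕ → ℤ → ℤ → Prop) (w : ℤ → ℤ → ℝ) (R θ : ℝ) (K : ℕ) (g : ℤ → ℤ → ℝ) (j : ℕ)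
    (z : Pt) (a b : ℤ) : ℝ := if a ∈ Hs al w R θ K j (ix j z.1) (ix j z.2.1) then g a b else 0

/-- the removed columns of the vectors -/
def uH (al : ℕ → ℤ → ℤ → Prop) (w : ℤ → ℤ → ℝ) (R θ : ℝ) (K : ℕ) (u : ℤ → ℤ → ι → ℝ) (j : ℕ)
    (z : Pt) (a b : ℤ) : ι → ℝ :=
  if b ∈ Hs al w R θ K j (ix j z.1) (ix j z.2.1) then u a b else 0

theorem uH_sq (al : ℕ → ℤ → ℤ → Prop) (w : ℤ → ℤ → ℝ) (R θ : ℝ) (K : ℕ) (u : ℤ → ℤ → ι → ℝ)
    (j : ℕ) (z : Pt) (a b : ℤ) :
    uH al w R θ K u j z a b ⬝ᵥ uH al w R θ K u j z a b ≤ u a b ⬝ᵥ u a b := by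
  unfold uH
  split_ifs
  · exact le_rfl
  · rw [zero_dotProduct]
    exact sq_nonneg' u a b

/-- the cost of a box depends only on the box -/
theorem cosF_pt (o : ℤ) (j : ℕ) (z : Pt) (F0 : Pt → ℝ) (F1 F2 F3 : ℕ → Pt → Pt → ℝ) :
    cosF o j (crn j (cx j z)) F0 F1 F2 F3 = cosF o j z F0 F1 F2 F3 := by
  unfold cosF
  rw [cx_crn]

/-- from the boxes to the points -/
theorem split_pt {Λ R θ : ℝ} (o : ℤ) (F1 F2 F3 : ℕ → Pt → ℝ) :
    cosA (fun k z => ¬ cst Λ U K k z) o K x (H305.cmp g u v) (fun k _ => F1 k)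
        (fun k _ => F2 k) (fun k _ => F3 k) ≤
      cosA (fun k z => ¬ cst Λ U K k z) o K x (H305.cmp g u v) (fun k _ => F1 k)
        (fun k _ => F2 k) (fun k _ => kill (dead' Λ U.1 x u R θ K) F3 k) +
      ∑ j ∈ range (K + 1), ∑ z ∈ cube3 K x with
        (¬ cst Λ U K j z ∧ afc' Λ U.1 x u R θ K j z.1 z.2.1),
        (8 ^ j : ℝ)⁻¹ * cosF o j z
          (H305.cmp (gH (alc Λ U.1 K x) (sq u) R θ K g j z)
            (uH (alc Λ U.1 K x) (sq u) R θ K u j z) v)
          (fun k _ => F1 k) (fun k _ => F2 k) (fun k _ => F3 k) := by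
  have h1 := split (R := R) (θ := θ) (K := K) (w := sq u) (alc_congr Λ U.1 K x) g u v
    (H579.cst_her Λ U K) o x F1 F2 F3
  refine h1.trans (add_le_add le_rfl ?_)
  have h0 : ∀ j z, 0 ≤ (8 ^ j : ℝ)⁻¹ * cosF o j z
      (H305.cmp (gH (alc Λ U.1 K x) (sq u) R θ K g j z)
        (uH (alc Λ U.1 K x) (sq u) R θ K u j z) v)
      (fun k _ => F1 k) (fun k _ => F2 k) (fun k _ => F3 k) := by
    intro j z
    refine mul_nonneg (by positivity) ?_
    rw [← cosA_true]
    exact H579.cosA_nonneg _ _ _ _ _ _ _ _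
  have h2 : ∑ j ∈ Icc 1 K, ∑ m ∈ cbs K (cx K x) j with ¬ cst Λ U K j (crn j m),
      rmv g u v (fun k z => ¬ cst Λ U K k z) (alc Λ U.1 K x) (sq u) R θ K o F1 F2 F3 j m ≤
      ∑ j ∈ Icc 1 K, ∑ z ∈ cube3 K x with
        (¬ cst Λ U K j z ∧ afc' Λ U.1 x u R θ K j z.1 z.2.1),
        (8 ^ j : ℝ)⁻¹ * cosF o j z
          (H305.cmp (gH (alc Λ U.1 K x) (sq u) R θ K g j z)
            (uH (alc Λ U.1 K x) (sq u) R θ K u j z) v)
          (fun k _ => F1 k) (fun k _ => F2 k) (fun k _ => F3 k) := by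
    refine sum_le_sum fun j hj => ?_
    rw [mem_Icc] at hj
    have h3 := H317.sum_cube_cx hj.2 x fun m => if ¬ cst Λ U K j (crn j m) then
      (8 ^ j : ℝ)⁻¹ * rmv g u v (fun k z => ¬ cst Λ U K k z) (alc Λ U.1 K x) (sq u) R θ K o
        F1 F2 F3 j m else 0
    have e0 : cbs K (cx K x) j = H317.cbs K (cx K x) j := rfl
    have h4 : ∑ m ∈ cbs K (cx K x) j with ¬ cst Λ U K j (crn j m),
        rmv g u v (fun k z => ¬ cst Λ U K k z) (alc Λ U.1 K x) (sq u) R θ K o F1 F2 F3 j m =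
        8 ^ j * ∑ m ∈ H317.cbs K (cx K x) j, if ¬ cst Λ U K j (crn j m) then
          (8 ^ j : ℝ)⁻¹ * rmv g u v (fun k z => ¬ cst Λ U K k z) (alc Λ U.1 K x) (sq u) R θ K o
            F1 F2 F3 j m else 0 := by
      rw [sum_filter, e0, mul_sum]
      refine sum_congr rfl fun m _ => ?_
      split_ifs
      · simp
      · field_simp
    rw [h4, ← h3, sum_filter]
    refine sum_le_sum fun z hz => ?_
    by_cases hc : ¬ cst Λ U K j z
    · have hc' : ¬ cst Λ U K j (crn j (cx j z)) := fun h => hc ((H48.cst_crn Λ U K j z).1 h)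
      rw [if_pos hc']
      by_cases ha : afc' Λ U.1 x u R θ K j z.1 z.2.1
      · rw [if_pos ⟨hc, ha⟩]
        refine mul_le_mul_of_nonneg_left ?_ (by positivity)
        unfold rmv
        refine (cosA_mono (fun _ _ _ => trivial) _ _ _ _ _ _ _).trans (le_of_eq ?_)
        rw [cosA_true, cosF_pt]
        rfl
      · rw [if_neg fun h => ha h.2]
        have hH : Hs (alc Λ U.1 K x) (sq u) R θ K j (cx j z).1 (cx j z).2.1 = ∅ := by
          rw [← not_nonempty_iff_eq_empty]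
          intro hn
          refine ha ?_
          have h5 := afc_of_Hs (alc_congr Λ U.1 K x) hn
          refine (afc_congr (alc_congr Λ U.1 K x) ?_ ?_).1 h5
          · rw [ix_two_pow_mul]
            rfl
          · rw [ix_two_pow_mul]
            rfl
        have h6 : rmv g u v (fun k z => ¬ cst Λ U K k z) (alc Λ U.1 K x) (sq u) R θ K o
            F1 F2 F3 j (cx j z) = 0 := by
          unfold rmv cosA
          refine sum_eq_zero fun k _ => ?_
          rw [sum_eq_zero, mul_zero]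
          intro m _
          rw [abs_eq_zero]
          refine H560.loc_eq_zero0 fun p _ => ?_
          rw [cmp_ite, hH]
          simp
        rw [h6, mul_zero]
    · have hc' : ¬ ¬ cst Λ U K j (crn j (cx j z)) := fun h => hc fun h' =>
        h ((H48.cst_crn Λ U K j z).2 h')
      rw [if_neg hc', if_neg fun h => hc h.1]
  refine (le_of_eq ?_).trans (h2.trans ?_)
  · refine sum_congr rfl fun j _ => sum_congr ?_ fun _ _ => rfl
    ext m
    simp only [mem_filter]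
  refine sum_le_sum_of_subset_of_nonneg ?_ fun j _ _ => sum_nonneg fun z _ => h0 j z
  intro j hj
  rw [mem_Icc] at hj
  exact mem_range.2 (by omega)

/-- **The cost of the killed slot and the price of the removed columns.** -/
theorem cut_price (C : Cls K x s r W U g u v) {Λ R θ P : ℝ} (hP : 0 ≤ P) (hs : 0 ≤ s)
    (hΛ : 0 ≤ Λ) (hR : 0 < R) (hθ : 0 < θ) (o : ℤ) (F1 F2 F3 : ℕ → Pt → ℝ)
    (hnat : ∀ j ≤ K, ∀ z ∈ cube3 K x, ∀ a : Tri,
      cosF o j z (atm a) (fun k _ => F1 k) (fun k _ => F2 k) (fun k _ => F3 k) ≤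
        P * wP 1 (cube3 j z) a) :
    cosA (fun k z => ¬ cst Λ U K k z) o K x (H305.cmp g u v) (fun k _ => F1 k)
        (fun k _ => F2 k) (fun k _ => F3 k) ≤
      cosA (fun k z => ¬ cst Λ U K k z) o K x (H305.cmp g u v) (fun k _ => F1 k)
        (fun k _ => F2 k) (fun k _ => kill (dead' Λ U.1 x u R θ K) F3 k) +
      18 * P * ((Λ * s) ^ (7 / 8 : ℝ) * ((Λ * s / θ * 8 ^ K) ^ (5 / 8 : ℝ) *
        (2 * √s / (r * R) * s * 8 ^ K) ^ (3 / 8 : ℝ))) := by
  refine (split_pt (R := R) (θ := θ) o F1 F2 F3).trans (add_le_add le_rfl ?_)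
  refine H498.removed_price hP C hs hΛ hnat (nw := new' Λ U.1 x u R θ K)
    (fun j a a' y h h' => (new_congr (alc_congr Λ U.1 K x) y h).1 h') ?_
    (fun j z a b => uH_sq _ _ _ _ _ _ _ _ _ _) (count_N C hs hΛ hθ) (count_ρ C hR)
  intro j z y b
  unfold gH Hs
  by_cases h : new' Λ U.1 x u R θ K j z.1 y
  · rw [if_pos h]
    split_ifs
    · exact le_rfl
    · rw [zero_pow (by norm_num)]
      exact sq_nonneg _
  · rw [if_neg h, if_neg, zero_pow (by norm_num)]
    intro h'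
    rw [mem_filter] at h'
    exact h ((new_congr (alc_congr Λ U.1 K x) y (by rw [ix_two_pow_mul])).1 h'.2)

end cls

end

end Vale.Agent.P141.H811
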