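import Vale.Agent.P141.H811.ColCls

/-!
# P141, line (A), item D5(b): masses of the removed columns

* `mass_new`, `mass_cls_new` : the removed columns of all squares carry at most the mass of the root;
* `gauge_new`, `gauge_cls_new` : the mass of a function of `y` on the removed columns;
* `gauge3`, `gauge3_cls` : the same for a function of `(x₂, x₃)`, sum over `x₀`, the cell of `x₃`
  tied to `x₀`.
-/

namespace Vale.Agent.P141.H811

open Finset Vale.Agent.P141.PL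
open Vale.Agent.P141.PL.H315 (Tri A2 avg avg_nonneg)
open Vale.Agent.P141.H48 (sst ind ind_nonneg sum_ind_le_one)
open Vale.Agent.P141.H769 (ix_of_le corner sq_pts ix_two_pow_mul)
open Vale.Agent.P141.H305 (Cls)

noncomputable section

open scoped Classical

section gen

variable {al : ℕ → ℤ → ℤ → Prop} {w : ℤ → ℤ → ℝ} {R θ : ℝ} {K : ℕ}

/-- the mass of the removed columns, all squares -/
theorem mass_new (hw : ∀ z y, 0 ≤ w z y) {N : ℕ} (hN : N ≤ K + 1) (X Y : ℤ) :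
    ∑ j ∈ range N, ∑ a ∈ iv (K - j) X, ∑ b ∈ iv (K - j) Y, ∑ z ∈ iv j a, ∑ y ∈ iv j b,
      (if new al w R θ K j z y then w z y else 0) ≤ ∑ z ∈ iv K X, ∑ y ∈ iv K Y, w z y := by
  have h1 : ∀ j ∈ range N, ∑ a ∈ iv (K - j) X, ∑ b ∈ iv (K - j) Y, ∑ z ∈ iv j a, ∑ y ∈ iv j b,
      (if new al w R θ K j z y then w z y else 0) =
      ∑ z ∈ iv K X, ∑ y ∈ iv K Y, ind (new al w R θ K j z y) * w z y := by
    intro j hj
    have hjK : j ≤ K := by have := mem_range.1 hj; omega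
    rw [sq_pts hjK X Y]
    refine sum_congr rfl fun z _ => sum_congr rfl fun y _ => ?_
    unfold ind
    split_ifs <;> ring
  rw [sum_congr rfl h1, sum_comm]
  refine sum_le_sum fun z _ => ?_
  rw [sum_comm]
  refine sum_le_sum fun y _ => ?_
  rw [← sum_mul]
  exact mul_le_of_le_one_left (hw z y) (sum_ind_le_one (fun k l => new_disj k l) _)

variable (hal : ∀ k z z' y y', ix k z = ix k z' → ix k y = ix k y' → (al k z y ↔ al k z' y'))

include hal in
/-- the mass of a function of `y` on the removed columns -/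
theorem gauge_new (hw : ∀ z y, 0 ≤ w z y) (hR : 0 < R) {N : ℕ} (hN : N ≤ K + 1) {G : ℤ → ℝ}
    (hG : ∀ y, 0 ≤ G y) (X Y : ℤ) :
    ∑ j ∈ range N, ∑ a ∈ iv (K - j) X, ∑ b ∈ iv (K - j) Y,
      2 ^ j * ∑ y ∈ iv j b, (if new al w R θ K j (2 ^ j * a) y then G y else 0) ≤
      ∑ y ∈ iv K Y, G y * (R⁻¹ * ∑ z ∈ iv K X, w z y) := by
  have h1 : ∀ j ∈ range N, ∑ a ∈ iv (K - j) X, ∑ b ∈ iv (K - j) Y,
      2 ^ j * ∑ y ∈ iv j b, (if new al w R θ K j (2 ^ j * a) y then G y else 0) =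
      ∑ y ∈ iv K Y, G y * ∑ a ∈ iv (K - j) X,
        (if new al w R θ K j (2 ^ j * a) y then (2 : ℝ) ^ j else 0) := by
    intro j hj
    have hjK : j ≤ K := by have := mem_range.1 hj; omega
    have e1 : ∀ a ∈ iv (K - j) X, ∑ b ∈ iv (K - j) Y,
        2 ^ j * ∑ y ∈ iv j b, (if new al w R θ K j (2 ^ j * a) y then G y else 0) =
        ∑ y ∈ iv K Y, G y * (if new al w R θ K j (2 ^ j * a) y then (2 : ℝ) ^ j else 0) := by
      intro a _
      rw [← mul_sum, H804.iv_sum hjK Y, mul_sum]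
      refine sum_congr rfl fun y _ => ?_
      split_ifs <;> ring
    rw [sum_congr rfl e1, sum_comm]
    exact sum_congr rfl fun y _ => (mul_sum _ _ _).symm
  rw [sum_congr rfl h1, sum_comm]
  refine sum_le_sum fun y _ => ?_
  rw [← mul_sum]
  refine mul_le_mul_of_nonneg_left ?_ (hG y)
  refine le_trans ?_ (removed (K := K) (θ := θ) hal hw hR X y)
  refine sum_le_sum_of_subset_of_nonneg (range_subset_range.2 hN) fun j _ _ =>
    sum_nonneg fun a _ => ?_
  split_ifs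
  · positivity
  · exact le_rfl

/-- a sum over the points `x₀` of a function of the tied cell -/
theorem tied_sum {K j : ℕ} (hj : j ≤ K) {h : ℤ → ℤ}
    (hinj : ∀ x x', h x = h x' → ix j x = ix j x') (hcl : ∀ x x', ix j x = ix j x' → h x = h x')
    {φ : ℤ → ℝ} (hφ : ∀ m, 0 ≤ φ m) (t₀ : ℤ) (S : Finset ℤ) :
    ∑ x ∈ iv K t₀, (if h x ∈ S then φ (h x) else 0) ≤ 2 ^ j * ∑ m ∈ S, φ m := by
  have h1 : ∑ x ∈ iv K t₀, (if h x ∈ S then φ (h x) else 0) =
      ∑ i ∈ iv (K - j) t₀, 2 ^ j * (if h (2 ^ j * i) ∈ S then φ (h (2 ^ j * i)) else 0) := by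
    rw [← H804.iv_sum hj t₀]
    refine sum_congr rfl fun i _ => ?_
    have e : ∀ x ∈ iv j i, (if h x ∈ S then φ (h x) else 0) =
        if h (2 ^ j * i) ∈ S then φ (h (2 ^ j * i)) else 0 := by
      intro x hx
      rw [hcl x _ (corner j hx)]
    rw [sum_congr rfl e, sum_const, card_iv, nsmul_eq_mul]
    push_cast
    ring
  rw [h1, ← mul_sum]
  refine mul_le_mul_of_nonneg_left ?_ (by positivity)
  rw [← sum_filter]
  have hi : Set.InjOn (fun i : ℤ => h (2 ^ j * i))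
      ((iv (K - j) t₀).filter fun i => h (2 ^ j * i) ∈ S) := by
    intro a _ b _ hab
    have := hinj _ _ hab
    rwa [ix_two_pow_mul, ix_two_pow_mul] at this
  rw [← sum_image hi]
  refine sum_le_sum_of_subset_of_nonneg ?_ fun m _ _ => hφ m
  intro m hm
  rw [mem_image] at hm
  obtain ⟨i, hi', rfl⟩ := hm
  exact (mem_filter.1 hi').2

include hal in
/-- the mass of a function of `(x₂, x₃)` on the removed columns, the cell of `x₃` tied to `x₀` -/
theorem gauge3 (hw : ∀ z y, 0 ≤ w z y) (hR : 0 < R) {N : ℕ} (hN : N ≤ K + 1)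
    {G : ℤ → ℤ → ℝ} (hG : ∀ y q, 0 ≤ G y q) {c : ℤ → ℕ → ℤ}
    (hinj : ∀ j x x', c x j = c x' j → ix j x = ix j x')
    (hcl : ∀ j x x', ix j x = ix j x' → c x j = c x' j) (X Y Z t₀ : ℤ) :
    ∑ x ∈ iv K t₀, ∑ j ∈ range N, ∑ a ∈ iv (K - j) X, ∑ b ∈ iv (K - j) Y,
      (if c x j - a - b ∈ iv (K - j) Z then
        ∑ y ∈ iv j b, ∑ q ∈ iv j (c x j - a - b),
          (if new al w R θ K j (2 ^ j * a) y then G y q else 0) else 0) ≤
      ∑ y ∈ iv K Y, (∑ q ∈ iv K Z, G y q) * (R⁻¹ * ∑ z ∈ iv K X, w z y) := by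
  refine le_trans ?_ (gauge_new (θ := θ) hal hw hR hN (G := fun y => ∑ q ∈ iv K Z, G y q)
    (fun y => sum_nonneg fun q _ => hG y q) X Y)
  rw [sum_comm]
  refine sum_le_sum fun j hj => ?_
  have hjK : j ≤ K := by have := mem_range.1 hj; omega
  rw [sum_comm]
  refine sum_le_sum fun a _ => ?_
  rw [sum_comm]
  refine sum_le_sum fun b _ => ?_
  have h1 := tied_sum (K := K) (j := j) hjK (h := fun x => c x j - a - b)
    (fun x x' h => hinj j x x' (by linarith)) (fun x x' h => by rw [hcl j x x' h])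
    (φ := fun m => ∑ y ∈ iv j b, ∑ q ∈ iv j m,
      (if new al w R θ K j (2 ^ j * a) y then G y q else 0))
    (fun m => sum_nonneg fun y _ => sum_nonneg fun q _ => by
      split_ifs
      · exact hG y q
      · exact le_rfl) t₀ (iv (K - j) Z)
  refine h1.trans (le_of_eq ?_)
  rw [sum_comm]
  congr 1
  refine sum_congr rfl fun y _ => ?_
  rw [H804.iv_sum hjK Z]
  split_ifs
  · rfl
  · exact sum_const_zero

end gen

section cls

variable {ι : Type} [Fintype ι] {K : ℕ} {x : Pt} {s r W : ℝ} {U : Tri} {g : ℤ → ℤ → ℝ}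
  {u v : ℤ → ℤ → ι → ℝ}

theorem root_mass (C : Cls K x s r W U g u v) :
    ∑ z ∈ iv K (ix K x.1), ∑ y ∈ iv K (ix K x.2.1), sq u z y ≤ s * 4 ^ K := by
  have h1 : avg (iv K (ix K x.1) ×ˢ iv K (ix K x.2.1)) (fun p => sq u p.1 p.2) ≤ s := by
    refine le_trans (H419.avg_mono fun p hp => ?_) C.U_u2
    rw [mem_product] at hp
    exact C.u_le p.1 hp.1 p.2 hp.2
  rw [avg_sq, inv_mul_le_iff₀ (by positivity)] at h1
  exact h1.trans (le_of_eq (mul_comm _ _))

theorem root_gauge (C : Cls K x s r W U g u v) :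
    ∑ y ∈ iv K (ix K x.2.1), ∑ q ∈ iv K (ix K x.2.2), g y q ^ 2 ≤ s * 4 ^ K := by
  have h1 : avg (iv K (ix K x.2.1) ×ˢ iv K (ix K x.2.2)) (fun p => g p.1 p.2 ^ 2) ≤ s := by
    refine le_trans (le_of_eq (H419.avg_congr fun p _ => ?_)) C.U_g2
    rw [C.U_g]
  rw [avg_sq, inv_mul_le_iff₀ (by positivity)] at h1
  exact h1.trans (le_of_eq (mul_comm _ _))

theorem root_col (C : Cls K x s r W U g u v) {y : ℤ} (hy : y ∈ iv K (ix K x.2.1)) :
    ∑ z ∈ iv K (ix K x.1), sq u z y ≤ 2 ^ K * (2 * √s / r) := by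
  have h3 := C.u_col y hy
  rw [H769.iv_pt] at h3
  unfold avg at h3
  rw [card_iv] at h3
  push_cast at h3
  rwa [inv_mul_le_iff₀ (by positivity)] at h3

/-- **the mass of the removed columns** -/
theorem mass_cls_new (C : Cls K x s r W U g u v) {Λ R θ : ℝ} {N : ℕ} (hN : N ≤ K + 1) :
    ∑ j ∈ range N, ∑ a ∈ iv (K - j) (ix K x.1), ∑ b ∈ iv (K - j) (ix K x.2.1),
      ∑ z ∈ iv j a, ∑ y ∈ iv j b, (if new' Λ U.1 x u R θ K j z y then sq u z y else 0) ≤
      s * 4 ^ K :=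
  (mass_new (sq_nonneg' u) hN _ _).trans (root_mass C)

/-- **the mass of the gauge on the removed columns**, `x₃` tied to `x₀` -/
theorem gauge3_cls (C : Cls K x s r W U g u v) {Λ R θ : ℝ} (hR : 0 < R) {N : ℕ}
    (hN : N ≤ K + 1) {c : ℤ → ℕ → ℤ} (hinj : ∀ j x x', c x j = c x' j → ix j x = ix j x')
    (hcl : ∀ j x x', ix j x = ix j x' → c x j = c x' j) (t₀ : ℤ) :
    ∑ x₀ ∈ iv K t₀, ∑ j ∈ range N, ∑ a ∈ iv (K - j) (ix K x.1), ∑ b ∈ iv (K - j) (ix K x.2.1),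
      (if c x₀ j - a - b ∈ iv (K - j) (ix K x.2.2) then
        ∑ y ∈ iv j b, ∑ q ∈ iv j (c x₀ j - a - b),
          (if new' Λ U.1 x u R θ K j (2 ^ j * a) y then g y q ^ 2 else 0) else 0) ≤
      2 * √s / (r * R) * s * 8 ^ K := by
  refine (gauge3 (θ := θ) (alc_congr Λ U.1 K x) (sq_nonneg' u) hR hN
    (G := fun y q => g y q ^ 2) (fun _ _ => sq_nonneg _) hinj hcl _ _ _ t₀).trans ?_
  have h1 : ∑ y ∈ iv K (ix K x.2.1), (∑ q ∈ iv K (ix K x.2.2), g y q ^ 2) *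
      (R⁻¹ * ∑ z ∈ iv K (ix K x.1), sq u z y) ≤
      ∑ y ∈ iv K (ix K x.2.1), (∑ q ∈ iv K (ix K x.2.2), g y q ^ 2) *
        (R⁻¹ * (2 ^ K * (2 * √s / r))) := by
    refine sum_le_sum fun y hy => mul_le_mul_of_nonneg_left ?_ (sum_nonneg fun _ _ => sq_nonneg _)
    exact mul_le_mul_of_nonneg_left (root_col C hy) (inv_nonneg.2 hR.le)
  have h2 := root_gauge C
  have h0 : 0 ≤ R⁻¹ * (2 ^ K * (2 * √s / r)) := by
    have h3 : 0 ≤ ∑ z ∈ iv K (ix K x.1), sq u z (2 ^ K * ix K x.2.1) :=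
      sum_nonneg fun _ _ => sq_nonneg' u _ _
    have h4 := root_col C (y := 2 ^ K * ix K x.2.1) (by rw [mem_iv, ix_two_pow_mul])
    exact mul_nonneg (inv_nonneg.2 hR.le) (h3.trans h4)
  refine h1.trans ?_
  rw [← sum_mul]
  refine (mul_le_mul_of_nonneg_right h2 h0).trans (le_of_eq ?_)
  have h8 : (8 : ℝ) ^ K = 4 ^ K * 2 ^ K := by rw [← mul_pow]; norm_num
  rw [h8, show 2 * √s / (r * R) = 2 * √s / r * R⁻¹ by
    rw [div_mul_eq_div_div, div_eq_mul_inv _ R]]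
  ring

end cls

end

end Vale.Agent.P141.H811
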