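import Vale.Agent.P141.H205.HNum2
import Vale.Agent.P141.H64.HSt3

/-!
# P141, line (A): `HSt1`, `HSt2`, the prices of the high parts of the first cut

`bs_num` : the numbers of the high parts; `hSt1`, `hSt2`.
-/

namespace Vale.Agent.P141.H811

open Finset Matrix Vale.Agent.P141.PL
open Vale.Agent.P141.H736 (Path)
open Vale.Agent.P141.H48 (US ES BSl)
open Vale.Agent.P141.H205 (FamK bs gH gD gN mW)
open Vale.Agent.P141.H971 (Fam0)
open Vale.Agent.P141.H64 (fam0_low fam0_mono famK_mono s32)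
open Vale.Agent.P141.H401

noncomputable section

open scoped Classical

theorem rpow_npow {x : ℝ} (hx : 0 < x) (y : ℝ) (n : ℕ) : (x ^ y) ^ n = x ^ (y * n) := by
  rw [← Real.rpow_natCast, ← Real.rpow_mul hx.le]

/-- **The numbers of the high parts.** -/
theorem bs_num {k3 c d Kt e t s r : ℝ} (hk : 0 ≤ k3) (hc : 0 ≤ c) (hd : 0 ≤ d) (ht : 0 < t)
    (ht1 : t ≤ 1) (hs : 0 < s) (hr : 1 ≤ r) (he : 0 ≤ e) (hKt : 0 < Kt) :
    bs (Kt * t ^ (1 - c)) e (t ^ (1 - k3) * s ^ (1 / 4 : ℝ) * r ^ k3) (4 * (t ^ (-d) * s)) ≤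
      8 * (24 ^ 8 * Kt ^ 8 * 64 * e + 12 ^ 4 * Kt ^ 4 * 16 * e) *
        (t ^ (2 + (2 * k3 - 8 * c - 3 * d)) * s ^ (3 / 2 : ℝ) * r ^ (-(2 * k3))) := by
  have hr0 : 0 < r := by linarith
  have e1 : (24 * (Kt * t ^ (1 - c))) ^ 8 * (4 * (t ^ (-d) * s)) ^ 3 * e /
      (t ^ (1 - k3) * s ^ (1 / 4 : ℝ) * r ^ k3) ^ 6 =
      24 ^ 8 * Kt ^ 8 * 64 * e *
        (t ^ (2 + (6 * k3 - 8 * c - 3 * d)) * s ^ (3 / 2 : ℝ) * r ^ (-(6 * k3))) := by
    rw [div_eq_iff (by positivity)]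
    have a1 : (t ^ (1 - c)) ^ 8 = t ^ ((1 - c) * (8 : ℕ)) := rpow_npow ht _ _
    have a2 : (t ^ (-d)) ^ 3 = t ^ (-d * (3 : ℕ)) := rpow_npow ht _ _
    have a3 : (t ^ (1 - k3)) ^ 6 = t ^ ((1 - k3) * (6 : ℕ)) := rpow_npow ht _ _
    have a4 : (s ^ (1 / 4 : ℝ)) ^ 6 = s ^ (1 / 4 * ((6 : ℕ) : ℝ)) := rpow_npow hs _ _
    have a5 : (r ^ k3) ^ 6 = r ^ (k3 * (6 : ℕ)) := rpow_npow hr0 _ _
    have a6 : s ^ 3 = s ^ (3 / 2 : ℝ) * s ^ (1 / 4 * ((6 : ℕ) : ℝ)) := by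
      rw [← Real.rpow_add hs, ← Real.rpow_natCast]
      congr 1
      push_cast
      norm_num
    have a7 : t ^ ((1 - c) * (8 : ℕ)) * t ^ (-d * (3 : ℕ)) =
        t ^ (2 + (6 * k3 - 8 * c - 3 * d)) * t ^ ((1 - k3) * (6 : ℕ)) := by
      rw [← Real.rpow_add ht, ← Real.rpow_add ht]
      congr 1
      push_cast
      ring
    have a8 : r ^ (-(6 * k3)) * r ^ (k3 * (6 : ℕ)) = 1 := by
      rw [← Real.rpow_add hr0]
      have : -(6 * k3) + k3 * ((6 : ℕ) : ℝ) = 0 := by push_cast; ring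
      rw [this, Real.rpow_zero]
    calc (24 * (Kt * t ^ (1 - c))) ^ 8 * (4 * (t ^ (-d) * s)) ^ 3 * e =
        24 ^ 8 * Kt ^ 8 * 64 * e * (((t ^ (1 - c)) ^ 8 * (t ^ (-d)) ^ 3) * s ^ 3) := by ring
      _ = 24 ^ 8 * Kt ^ 8 * 64 * e * ((t ^ (2 + (6 * k3 - 8 * c - 3 * d)) *
          t ^ ((1 - k3) * (6 : ℕ))) * (s ^ (3 / 2 : ℝ) * s ^ (1 / 4 * ((6 : ℕ) : ℝ)))) := by
          rw [a1, a2, a7, a6]
      _ = 24 ^ 8 * Kt ^ 8 * 64 * e * ((t ^ (2 + (6 * k3 - 8 * c - 3 * d)) *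
          t ^ ((1 - k3) * (6 : ℕ))) * (s ^ (3 / 2 : ℝ) * s ^ (1 / 4 * ((6 : ℕ) : ℝ)))) *
          (r ^ (-(6 * k3)) * r ^ (k3 * (6 : ℕ))) := by rw [a8, mul_one]
      _ = 24 ^ 8 * Kt ^ 8 * 64 * e *
          (t ^ (2 + (6 * k3 - 8 * c - 3 * d)) * s ^ (3 / 2 : ℝ) * r ^ (-(6 * k3))) *
          (t ^ (1 - k3) * s ^ (1 / 4 : ℝ) * r ^ k3) ^ 6 := by
          rw [mul_pow, mul_pow, a3, a4, a5]
          ring
  have e2 : (12 * (Kt * t ^ (1 - c))) ^ 4 * (4 * (t ^ (-d) * s)) ^ 2 * e /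
      (t ^ (1 - k3) * s ^ (1 / 4 : ℝ) * r ^ k3) ^ 2 =
      12 ^ 4 * Kt ^ 4 * 16 * e *
        (t ^ (2 + (2 * k3 - 4 * c - 2 * d)) * s ^ (3 / 2 : ℝ) * r ^ (-(2 * k3))) := by
    rw [div_eq_iff (by positivity)]
    have a1 : (t ^ (1 - c)) ^ 4 = t ^ ((1 - c) * (4 : ℕ)) := rpow_npow ht _ _
    have a2 : (t ^ (-d)) ^ 2 = t ^ (-d * (2 : ℕ)) := rpow_npow ht _ _
    have a3 : (t ^ (1 - k3)) ^ 2 = t ^ ((1 - k3) * (2 : ℕ)) := rpow_npow ht _ _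
    have a4 : (s ^ (1 / 4 : ℝ)) ^ 2 = s ^ (1 / 4 * ((2 : ℕ) : ℝ)) := rpow_npow hs _ _
    have a5 : (r ^ k3) ^ 2 = r ^ (k3 * (2 : ℕ)) := rpow_npow hr0 _ _
    have a6 : s ^ 2 = s ^ (3 / 2 : ℝ) * s ^ (1 / 4 * ((2 : ℕ) : ℝ)) := by
      rw [← Real.rpow_add hs, ← Real.rpow_natCast]
      congr 1
      push_cast
      norm_num
    have a7 : t ^ ((1 - c) * (4 : ℕ)) * t ^ (-d * (2 : ℕ)) =
        t ^ (2 + (2 * k3 - 4 * c - 2 * d)) * t ^ ((1 - k3) * (2 : ℕ)) := by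
      rw [← Real.rpow_add ht, ← Real.rpow_add ht]
      congr 1
      push_cast
      ring
    have a8 : r ^ (-(2 * k3)) * r ^ (k3 * (2 : ℕ)) = 1 := by
      rw [← Real.rpow_add hr0]
      have : -(2 * k3) + k3 * ((2 : ℕ) : ℝ) = 0 := by push_cast; ring
      rw [this, Real.rpow_zero]
    calc (12 * (Kt * t ^ (1 - c))) ^ 4 * (4 * (t ^ (-d) * s)) ^ 2 * e =
        12 ^ 4 * Kt ^ 4 * 16 * e * (((t ^ (1 - c)) ^ 4 * (t ^ (-d)) ^ 2) * s ^ 2) := by ring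
      _ = 12 ^ 4 * Kt ^ 4 * 16 * e * ((t ^ (2 + (2 * k3 - 4 * c - 2 * d)) *
          t ^ ((1 - k3) * (2 : ℕ))) * (s ^ (3 / 2 : ℝ) * s ^ (1 / 4 * ((2 : ℕ) : ℝ)))) := by
          rw [a1, a2, a7, a6]
      _ = 12 ^ 4 * Kt ^ 4 * 16 * e * ((t ^ (2 + (2 * k3 - 4 * c - 2 * d)) *
          t ^ ((1 - k3) * (2 : ℕ))) * (s ^ (3 / 2 : ℝ) * s ^ (1 / 4 * ((2 : ℕ) : ℝ)))) *
          (r ^ (-(2 * k3)) * r ^ (k3 * (2 : ℕ))) := by rw [a8, mul_one]
      _ = 12 ^ 4 * Kt ^ 4 * 16 * e *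
          (t ^ (2 + (2 * k3 - 4 * c - 2 * d)) * s ^ (3 / 2 : ℝ) * r ^ (-(2 * k3))) *
          (t ^ (1 - k3) * s ^ (1 / 4 : ℝ) * r ^ k3) ^ 2 := by
          rw [mul_pow, mul_pow, a3, a4, a5]
          ring
  unfold bs
  rw [e1, e2]
  have m1 : t ^ (2 + (6 * k3 - 8 * c - 3 * d)) ≤ t ^ (2 + (2 * k3 - 8 * c - 3 * d)) :=
    Real.rpow_le_rpow_of_exponent_ge ht ht1 (by linarith)
  have m2 : t ^ (2 + (2 * k3 - 4 * c - 2 * d)) ≤ t ^ (2 + (2 * k3 - 8 * c - 3 * d)) :=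
    Real.rpow_le_rpow_of_exponent_ge ht ht1 (by linarith)
  have m3 : r ^ (-(6 * k3)) ≤ r ^ (-(2 * k3)) :=
    Real.rpow_le_rpow_of_exponent_le hr (by linarith)
  have l1 : 24 ^ 8 * Kt ^ 8 * 64 * e *
      (t ^ (2 + (6 * k3 - 8 * c - 3 * d)) * s ^ (3 / 2 : ℝ) * r ^ (-(6 * k3))) ≤
      24 ^ 8 * Kt ^ 8 * 64 * e *
      (t ^ (2 + (2 * k3 - 8 * c - 3 * d)) * s ^ (3 / 2 : ℝ) * r ^ (-(2 * k3))) := by gcongr
  have l2 : 12 ^ 4 * Kt ^ 4 * 16 * e *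
      (t ^ (2 + (2 * k3 - 4 * c - 2 * d)) * s ^ (3 / 2 : ℝ) * r ^ (-(2 * k3))) ≤
      12 ^ 4 * Kt ^ 4 * 16 * e *
      (t ^ (2 + (2 * k3 - 8 * c - 3 * d)) * s ^ (3 / 2 : ℝ) * r ^ (-(2 * k3))) := by gcongr
  linarith

/-- **Price of the high part of `A`.** -/
theorem hSt1 : HSt1 := by
  intro a ha ha1
  refine ⟨1, one_pos, fun e0 he0 he0' => ⟨1, one_pos, fun k8 hk8 hk8' =>
    ⟨1, one_pos, fun k3 hk3 hk3' => ⟨k3 / 8, k3 / 1000, k3 / 1000, k3 / 4,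
      by linarith, by linarith, by linarith, by linarith, fun c hc hcc d hd hdd Kt e cP L hKt he
        hcP hL => ⟨1, le_rfl, ?_⟩⟩⟩⟩⟩
  have he' : 0 < e := by linarith
  obtain ⟨C, hC, HC⟩ := H593.hp_price (pA := 2 * k3 - 8 * c - 3 * d) (pB := -(2 * c + 2 * d))
    (qA := 2 * k3) (qB := 0) (wA := d) (wC := d) (wG := 2 * d) (θ := k3 / 1000)
    (gam := k3 / 8) (del := k3 / 4) (by linarith) (by linarith) (by linarith) (by nlinarith)
    (by nlinarith)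
    (CA := (cP + 2) * (8 * (24 ^ 8 * Kt ^ 8 * 64 * e + 12 ^ 4 * Kt ^ 4 * 16 * e)))
    (by positivity) (CB := 5760000 * (cP + 2) * Kt ^ 2 * e) (by positivity)
    (cA := 4 * (cP + 2) * e) (by positivity) (cC := 4 * (cP + 2))
    (by positivity) (cG := 8 * (cP + 2)) (by positivity) (cP := cP + 2) (by linarith)
  refine ⟨C, hC, ?_⟩
  intro t ht ht1 n ez F1 F2 F3 h1 h3 h2 o ho K hKn x ι _ _ s r U g u v hs hr hcls Q1 Q2 Q3 q1 q2 q3
  set p : H401.Num := ⟨a, e0, k8, k3, c, d, Kt, e, cP, L, 1, t⟩ with hp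
  have hr0 : 0 < r := by linarith
  have hLm : 1 ≤ p.Lm := Num.Lm_ge (p := p) ht ht1 hd.le
  have hs32 := s32 hs
  have hLd : p.Lm = t ^ (-d) := rfl
  have hL2 : (t ^ (-d)) ^ 2 = t ^ (-(2 * d)) := by
    rw [← Real.rpow_natCast, ← Real.rpow_mul ht.le]
    congr 1
    push_cast
    ring
  have hA2 : (t ^ (-d)) ^ 2 * (t ^ (1 - c)) ^ 2 = t ^ (2 + -(2 * c + 2 * d)) := by
    rw [hL2, ← Real.rpow_natCast (t ^ (1 - c)), ← Real.rpow_mul ht.le, ← Real.rpow_add ht]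
    congr 1
    push_cast
    ring
  -- the bound for every larger energy
  have key : ∀ ez' : ℝ, ez < ez' →
      NS o (p.al U K) K x (fun x0 k m =>
        |H677.nf3 (hA p s r U K g F1 Q1 x0 k) (mb p U K u F3 x0 k) (mC p U K v F2 x0 k) k m|) ≤
      (C * (t ^ (1 + k3 / 8) * s ^ (5 / 4 : ℝ) * 8 ^ K) * r ^ (-(k3 / 4))) * √ez' := by
    intro ez' hez'
    have hez : 0 < ez' := lt_of_le_of_lt h2.1 hez'
    obtain ⟨QC, HQC⟩ := H508.famK_Cls (Λ := p.Lm) hLm hcP (H593.ES_mono h2 hez'.le) hKn hcls.toCls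
    have hN := H205.NS_nf3_le (o := o) (Al := p.al U K) (K := K) (x := x) ho
      (A := hA p s r U K g F1 Q1) (b := mb p U K u F3) (C := mC p U K v F2)
      (QA := fun x0 k n m => qA p U K Q1 k (ix k x0) n m)
      (QB := fun x0 => H48.Qth p.Lm U.1 K Q3 x0)
      (QC := fun x0 => H48.Qth p.Lm U.2.1 K QC x0) (cP := cP + 2)
      (GA := (cP + 2) * (8 * (24 ^ 8 * Kt ^ 8 * 64 * e + 12 ^ 4 * Kt ^ 4 * 16 * e)) *
        (t ^ (2 + (2 * k3 - 8 * c - 3 * d)) * s ^ (3 / 2 : ℝ) * r ^ (-(2 * k3)) * 8 ^ K))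
      (GB := 5760000 * (cP + 2) * Kt ^ 2 * e *
        (t ^ (2 + -(2 * c + 2 * d)) * s ^ (3 / 2 : ℝ) * r ^ (-(0 : ℝ)) * 8 ^ K))
      (GC := 8 * (cP + 2) * (ez' ^ 2 * t ^ (-(2 * d)) * s ^ (3 / 2 : ℝ) * 8 ^ K))
      (DA := 4 * (cP + 2) * e * (t ^ (-d) * s * 8 ^ K))
      (DB := 4 * (cP + 2) * e * (t ^ (-d) * s * 8 ^ K))
      (DC := 4 * (cP + 2) * (ez' * t ^ (-d) * s * 8 ^ K))
      (by linarith) (by positivity) (by positivity) (by positivity) (by positivity)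
      (by positivity) (by positivity) (fun T _ => ?_) (fun T _ => ?_) (fun T _ => ?_)
    · refine hN.trans ((HC t ht ht1 s r ez' hs hr hez K _ (by positivity)).trans (le_of_eq ?_))
      ring
    · have hA := H205.famA_hi (p := p) (tt := Kt * t ^ (1 - c)) (zero_le_one.trans hLm) hs.le
        (Num.th_pos (p := p) ht hs hr) h1.1 he'.le hcP hcls.toCls h1.2.2.1 q1 hKn T
      refine fam0_mono hA ?_ (le_of_eq ?_)
      · unfold gH mW
        have hb := bs_num (k3 := k3) (c := c) (d := d) (Kt := Kt) (e := e) hk3.le hc hd.le ht ht1 hs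
          hr he'.le hKt
        have h8 : (0 : ℝ) ≤ (cP + 2) * 8 ^ K := by positivity
        have hb2 := mul_le_mul_of_nonneg_left hb h8
        refine le_trans (le_of_eq ?_) (hb2.trans (le_of_eq ?_))
        · show (cP + 2) * bs (Kt * t ^ (1 - c)) e (t ^ (1 - k3) * s ^ (1 / 4 : ℝ) * r ^ k3)
            (4 * (t ^ (-d) * s)) * 8 ^ K = _
          ring
        · ring
      · unfold gD mW
        rw [hLd]
        ring
    · refine famK_mono (H508.famK_bCls (Λ := p.Lm) hLm hcP h3 q3 hKn hcls.toCls T) (le_of_eq ?_)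
        (le_of_eq ?_)
      · rw [hLd, hs32, ← hA2, neg_zero, Real.rpow_zero]
        ring
      · rw [hLd]
        ring
    · refine famK_mono (HQC T) (le_of_eq ?_) (le_of_eq ?_)
      · rw [hLd, hs32, hL2]
        ring
      · rw [hLd]
        ring
  have h := H593.lim_ez key
  refine h.trans (le_of_eq ?_)
  ring

/-- **Price of the high part of `b`, first cut.** -/
theorem hSt2 : HSt2 := by
  intro a ha ha1
  refine ⟨1, one_pos, fun e0 he0 he0' => ⟨1, one_pos, fun k8 hk8 hk8' =>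
    ⟨1, one_pos, fun k3 hk3 hk3' => ⟨k3 / 8, k3 / 1000, k3 / 1000, k3 / 4,
      by linarith, by linarith, by linarith, by linarith, fun c hc hcc d hd hdd Kt e cP L hKt he
        hcP hL => ⟨1, le_rfl, ?_⟩⟩⟩⟩⟩
  have he' : 0 < e := by linarith
  obtain ⟨C, hC, HC⟩ := H593.hp_price (pA := -(2 * c + 2 * d)) (pB := 2 * k3 - 8 * c - 3 * d)
    (qA := 0) (qB := 2 * k3) (wA := d) (wC := d) (wG := 2 * d) (θ := k3 / 1000)
    (gam := k3 / 8) (del := k3 / 4) (by linarith) le_rfl (by linarith) (by nlinarith)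
    (by nlinarith) (CA := 1920000 * (cP + 2) * Kt ^ 2 * e) (by positivity)
    (CB := (cP + 2) * (8 * (24 ^ 8 * Kt ^ 8 * 64 * e + 12 ^ 4 * Kt ^ 4 * 16 * e)))
    (by positivity) (cA := 4 * (cP + 2) * e) (by positivity) (cC := 4 * (cP + 2))
    (by positivity) (cG := 8 * (cP + 2)) (by positivity) (cP := cP + 2) (by linarith)
  refine ⟨C, hC, ?_⟩
  intro t ht ht1 n ez F1 F2 F3 h1 h3 h2 o ho K hKn x ι _ _ s r U g u v hs hr hcls Q1 Q2 Q3 q1 q2 q3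
  set p : H401.Num := ⟨a, e0, k8, k3, c, d, Kt, e, cP, L, 1, t⟩ with hp
  have hr0 : 0 < r := by linarith
  have hLm : 1 ≤ p.Lm := Num.Lm_ge (p := p) ht ht1 hd.le
  have hs32 := s32 hs
  have hLd : p.Lm = t ^ (-d) := rfl
  have hL2 : (t ^ (-d)) ^ 2 = t ^ (-(2 * d)) := by
    rw [← Real.rpow_natCast, ← Real.rpow_mul ht.le]
    congr 1
    push_cast
    ring
  have hA2 : (t ^ (-d)) ^ 2 * (t ^ (1 - c)) ^ 2 = t ^ (2 + -(2 * c + 2 * d)) := by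
    rw [hL2, ← Real.rpow_natCast (t ^ (1 - c)), ← Real.rpow_mul ht.le, ← Real.rpow_add ht]
    congr 1
    push_cast
    ring
  -- the bound for every larger energy
  have key : ∀ ez' : ℝ, ez < ez' →
      NS o (p.al U K) K x (fun x0 k m =>
        |H677.nf3 (cA p s r U K g F1 Q1 x0 k) (hb1 p s r U K u F3 Q3 x0 k)
          (mC p U K v F2 x0 k) k m|) ≤
      (C * (t ^ (1 + k3 / 8) * s ^ (5 / 4 : ℝ) * 8 ^ K) * r ^ (-(k3 / 4))) * √ez' := by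
    intro ez' hez'
    have hez : 0 < ez' := lt_of_le_of_lt h2.1 hez'
    obtain ⟨QC, HQC⟩ := H508.famK_Cls (Λ := p.Lm) hLm hcP (H593.ES_mono h2 hez'.le) hKn hcls.toCls
    have hN := H205.NS_nf3_le (o := o) (Al := p.al U K) (K := K) (x := x) ho
      (A := cA p s r U K g F1 Q1) (b := hb1 p s r U K u F3 Q3) (C := mC p U K v F2)
      (QA := fun x0 k n m => qA p U K Q1 k (ix k x0) n m)
      (QB := fun x0 k n m => qB p U K Q3 k (ix k x0) n m)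
      (QC := fun x0 => H48.Qth p.Lm U.2.1 K QC x0) (cP := cP + 2)
      (GA := 1920000 * (cP + 2) * Kt ^ 2 * e *
        (t ^ (2 + -(2 * c + 2 * d)) * s ^ (3 / 2 : ℝ) * r ^ (-(0 : ℝ)) * 8 ^ K))
      (GB := (cP + 2) * (8 * (24 ^ 8 * Kt ^ 8 * 64 * e + 12 ^ 4 * Kt ^ 4 * 16 * e)) *
        (t ^ (2 + (2 * k3 - 8 * c - 3 * d)) * s ^ (3 / 2 : ℝ) * r ^ (-(2 * k3)) * 8 ^ K))
      (GC := 8 * (cP + 2) * (ez' ^ 2 * t ^ (-(2 * d)) * s ^ (3 / 2 : ℝ) * 8 ^ K))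
      (DA := 4 * (cP + 2) * e * (t ^ (-d) * s * 8 ^ K))
      (DB := 4 * (cP + 2) * e * (t ^ (-d) * s * 8 ^ K))
      (DC := 4 * (cP + 2) * (ez' * t ^ (-d) * s * 8 ^ K))
      (by linarith) (by positivity) (by positivity) (by positivity) (by positivity)
      (by positivity) (by positivity) (fun T _ => ?_) (fun T _ => ?_) (fun T _ => ?_)
    · refine hN.trans ((HC t ht ht1 s r ez' hs hr hez K _ (by positivity)).trans (le_of_eq ?_))
      ring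
    · have hA := H508.fam0_Cls (Λ := p.Lm) (K := K) (F1 := F1) hLm hcP h1 q1 hKn hcls.toCls T
      refine fam0_mono (fam0_low (c := p.th s r ^ 2) hA) (le_of_eq ?_) (le_of_eq ?_)
      · rw [hLd, hs32, ← hA2, neg_zero, Real.rpow_zero]
        ring
      · rw [hLd]
        ring
    · have hB := H205.famB_hi (p := p) (tt := Kt * t ^ (1 - c)) (zero_le_one.trans hLm) hs.le
        (Num.th_pos (p := p) ht hs hr) h3.1 he'.le hcP hcls.toCls h3.2.2.1 q3 hKn T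
      refine famK_mono hB ?_ (le_of_eq ?_)
      · unfold gH mW
        have hb := bs_num (k3 := k3) (c := c) (d := d) (Kt := Kt) (e := e) hk3.le hc hd.le ht ht1 hs
          hr he'.le hKt
        have h8 : (0 : ℝ) ≤ (cP + 2) * 8 ^ K := by positivity
        have hb2 := mul_le_mul_of_nonneg_left hb h8
        refine le_trans (le_of_eq ?_) (hb2.trans (le_of_eq ?_))
        · show (cP + 2) * bs (Kt * t ^ (1 - c)) e (t ^ (1 - k3) * s ^ (1 / 4 : ℝ) * r ^ k3)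
            (4 * (t ^ (-d) * s)) * 8 ^ K = _
          ring
        · ring
      · unfold gD mW
        rw [hLd]
        ring
    · refine famK_mono (HQC T) (le_of_eq ?_) (le_of_eq ?_)
      · rw [hLd, hs32, hL2]
        ring
      · rw [hLd]
        ring
  have h := H593.lim_ez key
  refine h.trans (le_of_eq ?_)
  ring

end

end Vale.Agent.P141.H811
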