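import Vale.Agent.P141.H900.NumAB
import Vale.Agent.P141.H829.PairFD

/-!
# P141, line (A), flow part: the mass of the third family at every `x₀`, every time

* `agC` : the third family does not move off its affected squares;
* `C_le` : at a point, the square at the time `j` is at most the sum over the affected squares
  which contain the point of the square at the next time;
* **`mass_z`** : one number `MM x₀` above the masses of the root at all the times `j ≤ K`, and its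
  sum over `x₀`.
-/

namespace Vale.Agent.P141.H811

open Finset Matrix
open Vale.Agent.P141.PL (Pt iv ix mem_iv ix_ix cx)
open Vale.Agent.P141.PL.H315 (Tri)
open Vale.Agent.P141.H48 (sst)
open Vale.Agent.P141.H305 (Cls)
open Vale.Agent.P141.H576 (QD Dd_sst agree_kD)
open Vale.Agent.P141.H677.Sk (FamA FamV FDs)
open Vale.Agent.P141.H43 (nsq nsq_nonneg)
open Vale.Agent.P141.H900.Num (QC charge sum_if pkC)

noncomputable section

open scoped Classical

variable {ι : Type} [Fintype ι] [DecidableEq ι] {q : H401.Num} {n : ℕ} {ez : ℝ}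
  {F1 F2 F3 : ℕ → Pt → ℝ} {K : ℕ} {x : Pt} {s r P : ℝ} {U : Tri} {g : ℤ → ℤ → ℝ}
  {u v : ℤ → ℤ → ι → ℝ} {A : FamA} {b C : FamV ι} {Q1 Q2 Q3 : ℕ → Pt → Prop}
  {v' : ℤ → ℤ → ι → ℝ}

/-- **The third family does not move off its affected squares.** -/
theorem agC (h : FDs q n ez F1 F2 F3 K x s r U g u v A b C Q1 Q2 Q3 v') (hK : K ≤ n)
    {k : ℕ} (hk : k < K) {x0 x' z : ℤ} (hQ : ¬ QC q U K Q2 k (ix k x0) (ix k x') (ix k z)) :
    C x0 (k + 1) z x' = C x0 k z x' := by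
  rw [h.C_eq, h.C_eq]
  have h1 := agree_kD (Dd_sst q.Lm U.2.1 K) h.B2 (by omega : k < n) hQ
    (mem_iv.2 rfl : x' ∈ iv k (ix k x')) (mem_iv.2 rfl : z ∈ iv k (ix k z))
  rw [H576.kD_sst] at h1
  rw [h1]

theorem C_zero (h : FDs q n ez F1 F2 F3 K x s r U g u v A b C Q1 Q2 Q3 v') (x0 z x' : ℤ) :
    C x0 0 z x' = 0 := by
  rw [h.C_eq]
  unfold H677.kF
  rw [if_pos (Or.inl rfl), zero_smul]

/-- **One point.** -/
theorem C_le (h : FDs q n ez F1 F2 F3 K x s r U g u v A b C Q1 Q2 Q3 v') (hK : K ≤ n)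
    (x0 z x' : ℤ) : ∀ j ≤ K, nsq (C x0 j z x') ≤ ∑ k ∈ range j,
      (if QC q U K Q2 k (ix k x0) (ix k x') (ix k z) then nsq (C x0 (k + 1) z x') else 0) := by
  intro j
  induction j with
  | zero =>
    intro _
    rw [C_zero h, range_zero, sum_empty]
    unfold H43.nsq
    exact (dotProduct_zero _).le
  | succ j ih =>
    intro hj
    rw [sum_range_succ]
    have h0 : 0 ≤ ∑ k ∈ range j, (if QC q U K Q2 k (ix k x0) (ix k x') (ix k z) then
        nsq (C x0 (k + 1) z x') else 0) := sum_nonneg fun k _ => by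
      split_ifs
      · exact nsq_nonneg _
      · exact le_rfl
    by_cases hQ : QC q U K Q2 j (ix j x0) (ix j x') (ix j z)
    · rw [if_pos hQ]
      linarith
    · rw [if_neg hQ, add_zero, agC h hK (Nat.lt_of_succ_le hj) hQ]
      exact ih (Nat.le_of_succ_le hj)

/-- **The mass of the third family.** -/
theorem mass_z (h : FDs q n ez F1 F2 F3 K x s r U g u v A b C Q1 Q2 Q3 v')
    (hcl : Cls K x s r P U g u v) (hs : 0 ≤ s) (hΛ : 1 ≤ q.Lm) (hez : 0 ≤ ez) (hK : K ≤ n) :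
    ∃ MM : ℤ → ℝ, (∀ x0, 0 ≤ MM x0) ∧ (∀ x0, ∀ j ≤ K, ∑ x' ∈ iv K (cx K x).1,
      ∑ z ∈ iv K (cx K x).2.2, nsq (C x0 j z x') ≤ MM x0) ∧
    ∀ t, ∑ x0 ∈ iv K t, MM x0 ≤ 4 * q.Lm * ez * s * (q.cP + 2) * 8 ^ K := by
  have h0 : ∀ x0 k z x', 0 ≤ (if QC q U K Q2 k (ix k x0) (ix k x') (ix k z) then
      nsq (C x0 (k + 1) z x') else 0) := fun x0 k z x' => by
    split_ifs
    · exact nsq_nonneg _
    · exact le_rfl
  refine ⟨fun x0 => ∑ k ∈ range K, ∑ x' ∈ iv K (ix K x.1), ∑ z ∈ iv K (ix K x.2.2),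
    (if QC q U K Q2 k (ix k x0) (ix k x') (ix k z) then nsq (C x0 (k + 1) z x') else 0),
    fun x0 => sum_nonneg fun k _ => sum_nonneg fun x' _ => sum_nonneg fun z _ => h0 _ _ _ _,
    fun x0 j hj => ?_, fun t => ?_⟩
  · refine (sum_le_sum fun x' _ => sum_le_sum fun z _ => (C_le h hK x0 z x' j hj).trans
      (sum_le_sum_of_subset_of_nonneg (range_subset_range.2 hj)
        fun k _ _ => h0 x0 k z x')).trans (le_of_eq ?_)
    show ∑ x' ∈ iv K (ix K x.1), ∑ z ∈ iv K (ix K x.2.2), ∑ k ∈ range K, _ = _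
    have e : ∀ x' ∈ iv K (ix K x.1), ∑ z ∈ iv K (ix K x.2.2), ∑ k ∈ range K,
        (if QC q U K Q2 k (ix k x0) (ix k x') (ix k z) then nsq (C x0 (k + 1) z x') else 0) =
        ∑ k ∈ range K, ∑ z ∈ iv K (ix K x.2.2),
        (if QC q U K Q2 k (ix k x0) (ix k x') (ix k z) then nsq (C x0 (k + 1) z x') else 0) :=
      fun x' _ => sum_comm
    rw [sum_congr rfl e, sum_comm]
  · have e : ∀ x0 ∈ iv K t, ∑ k ∈ range K, ∑ x' ∈ iv K (ix K x.1), ∑ z ∈ iv K (ix K x.2.2),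
        (if QC q U K Q2 k (ix k x0) (ix k x') (ix k z) then nsq (C x0 (k + 1) z x') else 0) =
        ∑ k ∈ range K, ∑ p ∈ iv (K - k) (ix K x.1), ∑ o ∈ iv (K - k) (ix K x.2.2),
          (if QC q U K Q2 k (ix k x0) p o then
            (if p ∈ iv (K - k) (ix K x.1) ∧ o ∈ iv (K - k) (ix K x.2.2) then
              ∑ x' ∈ iv k p, ∑ z ∈ iv k o, nsq (C x0 (k + 1) z x') else 0) else 0) := by
      intro x0 _
      refine sum_congr rfl fun k hk => ?_
      rw [sum_if (mem_range.1 hk).le _ _ (fun x' z => nsq (C x0 (k + 1) z x'))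
        (QC q U K Q2 k (ix k x0))]
      refine sum_congr rfl fun p hp => sum_congr rfl fun o ho => ?_
      rw [if_pos (⟨hp, ho⟩ : p ∈ iv (K - k) (ix K x.1) ∧ o ∈ iv (K - k) (ix K x.2.2))]
    rw [sum_congr rfl e]
    have hB : 0 ≤ 4 * q.Lm * ez * s := by positivity
    refine (charge (pkC h hK) (fun x0 k p o =>
      (if p ∈ iv (K - k) (ix K x.1) ∧ o ∈ iv (K - k) (ix K x.2.2) then
        ∑ x' ∈ iv k p, ∑ z ∈ iv k o, nsq (C x0 (k + 1) z x') else 0)) hB
      (fun k hk i p o => ?_) t)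
    by_cases hr : p ∈ iv (K - k) (ix K x.1) ∧ o ∈ iv (K - k) (ix K x.2.2)
    · have e2 : ∑ x0 ∈ iv k i, (if p ∈ iv (K - k) (ix K x.1) ∧ o ∈ iv (K - k) (ix K x.2.2) then
          ∑ x' ∈ iv k p, ∑ z ∈ iv k o, nsq (C x0 (k + 1) z x') else 0) =
          ∑ x0 ∈ iv k i, ∑ x' ∈ iv k p, ∑ z ∈ iv k o, nsq (C x0 (k + 1) z x') :=
        sum_congr rfl fun x0 _ => if_pos hr
      rw [e2]
      refine (H829.massC_FD h hcl hΛ hez hK k hk i o hr.2 p hr.1).trans (le_of_eq ?_)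
      ring
    · rw [sum_congr rfl fun x0 _ => if_neg hr, sum_const_zero]
      positivity

end

end Vale.Agent.P141.H811
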