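import Vale.Agent.P141.H811.NumZ
import Vale.Agent.P141.H76.MassZ
import Vale.Agent.P141.H883.CapZ
import Vale.Agent.P141.H550.CrZ
import Vale.Agent.P141.H277.PhiS

/-!
# P141, line (A), flow part: `Num` of the stack at the data of the flow part

* **`num_fd`** : all fields of `H505.Sk1.Num` at every `x₀`, one slot on one plane of one shifted
  grid, with the sum over `x₀`;
* **`num_phi`** : the same with `ε = m ^ (1/4)` and the numbers of `H277.Phi.PhiZ`.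
-/

namespace Vale.Agent.P141.H811

open Finset Matrix Vale.Agent.P141.PL Vale.Agent.P141.H103
open Vale.Agent.P141.H505.Sk1
open Vale.Agent.P075
open Vale.Agent.P141.PL.H315 (Tri)
open Vale.Agent.P141.H747 (RgS shA shB shC sft)
open Vale.Agent.P141.H677 (rt)
open Vale.Agent.P141.H677.Sk (FamA FamV FDs Slt av NumX)
open Vale.Agent.P141.H43 (nsq nsq_nonneg)
open Vale.Agent.P141.H43.Seam (WQ MQ)
open Vale.Agent.P141.H795 (ys)
open Vale.Agent.P141.H550.CrZ (PN)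

noncomputable section

open scoped Classical

variable {ι : Type} [Fintype ι] [DecidableEq ι] {q : H401.Num} {n : ℕ} {ez : ℝ}
  {F1 F2 F3 : ℕ → Pt → ℝ} {K : ℕ} {x : Pt} {s r P : ℝ} {U : Tri} {g : ℤ → ℤ → ℝ}
  {u v : ℤ → ℤ → ι → ℝ} {A : FamA} {b C : FamV ι} {Q1 Q2 Q3 : ℕ → Pt → Prop}
  {v' : ℤ → ℤ → ι → ℝ}

/-- **All fields of `Num` at the data of the flow part.** -/
theorem num_fd (h : FDs q n ez F1 F2 F3 K x s r U g u v A b C Q1 Q2 Q3 v')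
    (hC : H305.Cls K x s r P U g u v) (ht : 0 < q.t) (hez : 0 < ez) (hs : 0 ≤ s)
    (hcP : 0 ≤ q.cP) (hK : K ≤ n) {o : ℤ} (ho : o = 1 ∨ o = -1) {j : ℤ}
    (hj : j ∈ Icc (0 : ℤ) 2) (w e : Pt) {R : Slt ι} {X κ ε cC : ℝ}
    (hN : NumX K (cx K x) R C w X) (hsym : ∀ x0 z x, (R x0 0 z x)ᵀ = R x0 0 z x)
    (hcap : ∀ x0 z x w, nsq (R x0 0 z x *ᵥ w) ≤ κ ^ 2 * nsq w) (hε : 0 < ε)
    (hcC : 16 * (ε ^ 2 + κ ^ 2) * √(q.Lm * s) ≤ cC ^ 2) :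
    ∃ En : ℤ → ℝ, (∀ x0, 0 ≤ En x0) ∧
      ∑ t ∈ rt (cx K x), ∑ x0 ∈ iv K t, En x0 ≤
        ez⁻¹ * ((6 + PN q.cP + 4 * (ε ^ 2)⁻¹) * X) +
          ε ^ 2 * (12 * (q.Lm * s) * ((PN q.cP + q.cP + 3) * 8 ^ K)) ∧
      ∀ t ∈ rt (cx K x), ∀ x0 ∈ iv K t, Num 0 K ((cx K x).1 - e.1) ((cx K x).2.1 - e.2.1)
        ((cx K x).2.2 - e.2.2) (fun k => ix k (ys (-x0) w) - j)
        (fun k y z => shA K (cx K x) w (A x0) (min k K) z y)
        (fun k x' y => shB K (cx K x) w (b x0) (min k K) x' y)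
        (fun k x' z => (√ez)⁻¹ • shC K (cx K x) w (C x0) (min k K) z x')
        (WQ ε (RgS R w.2.2 w.1 x0)) (MQ (RgS R w.2.2 w.1 x0)) (fun _ _ _ => 0) (En x0) cC := by
  have hΛ : 0 ≤ q.Lm := Real.rpow_nonneg ht.le _
  obtain ⟨hj0, hj2⟩ := mem_Icc.1 hj
  obtain ⟨Ec, c0, c1, c2⟩ := H550.CrZ.cross_born h hC hez hΛ hs hcP hK ho hj0 hj2 w e hN ε
  obtain ⟨MM, m0, m1, _, m3⟩ := H76.mass_z h hC hΛ hs hez.le hK
  obtain ⟨En, e0, e1, e2⟩ := num_z (K := K) (M := cx K x) (s := w) (R := R) (A := A) (b := b)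
    (C := C) (ν := (√ez)⁻¹) (ε := ε) (cC := cC) hε hN hsym e
    (fun x0 k => ix k (ys (-x0) w) - j) m0 c0 (fun t _ x0 _ j hj => m1 x0 j hj) m3 c1
    (fun t _ x0 _ => (c2 x0).2) (fun t _ x0 _ => (c2 x0).1)
    (fun t _ x0 _ k a n' m hk ha i _ hi' _ _ =>
      H883.capZ h hC ht hs hez hK (hcap x0) hcC w k a n' m hk ha i hi')
  refine ⟨En, e0, e1.trans (le_of_eq ?_), e2⟩
  have e3 : ((√ez)⁻¹) ^ 2 = ez⁻¹ := by
    rw [inv_pow, Real.sq_sqrt hez.le]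
  rw [e3]
  field_simp
  ring

/-- **`Num` with the numbers of `PhiZ`.** -/
theorem num_phi (h : FDs q n ez F1 F2 F3 K x s r U g u v A b C Q1 Q2 Q3 v')
    (hC : H305.Cls K x s r P U g u v) (ht : 0 < q.t) (ht1 : q.t ≤ 1) (hc0 : 0 ≤ q.c)
    (hd0 : 0 ≤ q.d) (hez : 0 < ez) (hs : 0 ≤ s) (hr : 1 ≤ r)
    (hcP : 0 ≤ q.cP) (hK : K ≤ n) {o : ℤ} (ho : o = 1 ∨ o = -1) {j : ℤ}
    (hj : j ∈ Icc (0 : ℤ) 2) (w e : Pt) {R : Slt ι} {κ m N0 cC : ℝ} (hκ : 1 ≤ κ) (hm : 0 < m)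
    (hm1 : m ≤ 1) (hN0 : 0 ≤ N0) (hN : NumX K (cx K x) R C w (N0 * (ez * m)))
    (hsym : ∀ x0 z x, (R x0 0 z x)ᵀ = R x0 0 z x)
    (hcap : ∀ x0 z x w, nsq (R x0 0 z x *ᵥ w) ≤ κ ^ 2 * nsq w)
    (hcC : 16 * (1 + κ ^ 2) * √(q.Lm * s) ≤ cC ^ 2) :
    ∃ En : ℤ → ℝ, (∀ x0, 0 ≤ En x0) ∧
      ∑ t ∈ rt (cx K x), ∑ x0 ∈ iv K t, En x0 ≤
        12 * (PN q.cP + q.cP + 10) * (N0 + H277.Phi.MM q s r κ K) * √m ∧
      ∀ t ∈ rt (cx K x), ∀ x0 ∈ iv K t, Num 0 K ((cx K x).1 - e.1) ((cx K x).2.1 - e.2.1)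
        ((cx K x).2.2 - e.2.2) (fun k => ix k (ys (-x0) w) - j)
        (fun k y z => shA K (cx K x) w (A x0) (min k K) z y)
        (fun k x' y => shB K (cx K x) w (b x0) (min k K) x' y)
        (fun k x' z => (√ez)⁻¹ • shC K (cx K x) w (C x0) (min k K) z x')
        (WQ (m ^ (1 / 4 : ℝ)) (RgS R w.2.2 w.1 x0)) (MQ (RgS R w.2.2 w.1 x0)) (fun _ _ _ => 0)
        (En x0) cC := by
  have hε : 0 < m ^ (1 / 4 : ℝ) := Real.rpow_pos_of_pos hm _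
  have e2 : (m ^ (1 / 4 : ℝ)) ^ 2 = √m := by
    rw [Real.sqrt_eq_rpow, ← Real.rpow_natCast, ← Real.rpow_mul hm.le]
    norm_num
  have hsm : 0 < √m := Real.sqrt_pos.2 hm
  have hsm1 : √m ≤ 1 := Real.sqrt_le_one.2 hm1
  have hms : √m * √m = m := Real.mul_self_sqrt hm.le
  have hPN : 0 ≤ PN q.cP := by
    unfold H550.CrZ.PN
    positivity
  obtain ⟨En, a0, a1, a2⟩ := num_fd h hC ht hez hs hcP hK ho hj w e (ε := m ^ (1 / 4 : ℝ))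
    (κ := κ) (cC := cC) hN hsym hcap hε (by
      refine le_trans ?_ hcC
      rw [e2]
      refine mul_le_mul_of_nonneg_right ?_ (Real.sqrt_nonneg _)
      nlinarith)
  refine ⟨En, a0, a1.trans ?_, a2⟩
  rw [e2]
  have hL : q.Lm * s * 8 ^ K ≤ H277.Phi.MM q s r κ K := by
    unfold H277.Phi.MM
    have h1 := H277.Phi.lgS_one (r := r) (κ := κ) ht ht1 hr hκ
    have h2 : (1 : ℝ) ≤ H277.Phi.lgS q r κ ^ 64 := one_le_pow₀ h1
    have h3 : q.Lm ≤ q.t ^ (-(64 * (q.c + q.d))) := by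
      unfold H401.Num.Lm
      exact Real.rpow_le_rpow_of_exponent_ge ht ht1 (by linarith)
    have h4 : 0 ≤ q.t ^ (-(64 * (q.c + q.d))) * s * 8 ^ K := by
      have := Real.rpow_nonneg ht.le (-(64 * (q.c + q.d)))
      positivity
    calc q.Lm * s * 8 ^ K ≤ q.t ^ (-(64 * (q.c + q.d))) * s * 8 ^ K := by
          have : (0 : ℝ) ≤ 8 ^ K := by positivity
          exact mul_le_mul_of_nonneg_right (mul_le_mul_of_nonneg_right h3 hs) this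
      _ ≤ _ := le_mul_of_one_le_left h4 h2
  have e3 : ez⁻¹ * ((6 + PN q.cP + 4 * (√m)⁻¹) * (N0 * (ez * m))) =
      ((6 + PN q.cP) * √m + 4) * N0 * √m := by
    have h1 : ez⁻¹ * ((6 + PN q.cP + 4 * (√m)⁻¹) * (N0 * (ez * (√m * √m)))) =
        ((6 + PN q.cP) * √m + 4) * N0 * √m := by
      field_simp
    rwa [hms] at h1
  rw [e3]
  have h5 : ((6 + PN q.cP) * √m + 4) * N0 * √m ≤ (10 + PN q.cP) * N0 * √m := by
    refine mul_le_mul_of_nonneg_right (mul_le_mul_of_nonneg_right ?_ hN0) hsm.le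
    nlinarith
  have h6 : √m * (12 * (q.Lm * s) * ((PN q.cP + q.cP + 3) * 8 ^ K)) ≤
      12 * (PN q.cP + q.cP + 3) * H277.Phi.MM q s r κ K * √m := by
    have h7 := mul_le_mul_of_nonneg_left hL
      (by positivity : 0 ≤ 12 * (PN q.cP + q.cP + 3) * √m)
    linarith
  have hMM : 0 ≤ H277.Phi.MM q s r κ K := by
    refine le_trans ?_ hL
    have : 0 ≤ q.Lm := Real.rpow_nonneg ht.le _
    positivity
  have h8 : 0 ≤ N0 * √m := mul_nonneg hN0 hsm.le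
  have h9 : 0 ≤ H277.Phi.MM q s r κ K * √m := mul_nonneg hMM hsm.le
  nlinarith [mul_nonneg hPN h8, mul_nonneg hPN h9, mul_nonneg hcP h8, mul_nonneg hcP h9]

end

end Vale.Agent.P141.H811
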