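import Vale.Agent.P141.H811.NumZF
import Vale.Agent.P141.H863.PhiZ1
import Vale.Agent.P141.H170.PairT
import Vale.Agent.P141.H675.OfSlot
import Vale.Agent.P141.H636.FibF
import Vale.Agent.P141.H639.NumL
import Vale.Agent.P141.H900.NumAB

/-!
# P141, line (A), flow part: `PhiZ` for every slot

* `ch_smul`, `numA_smul` : the numbers of `A` do not see a factor of the third family;
* **`phi_z : PartS FDU PhiZ`**.
-/

namespace Vale.Agent.P141.H811

open Finset Matrix Vale.Agent.P141.PL Vale.Agent.P141.H103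
open Vale.Agent.P141.H505.Sk1
open Vale.Agent.P075
open Vale.Agent.P141.PL.H315 (Tri)
open Vale.Agent.P141.H747 (RgS shA shB shC sft)
open Vale.Agent.P141.H677 (rt)
open Vale.Agent.P141.H677.Sk (FamA FamV FDs Slt av NumX)
open Vale.Agent.P141.H43 (nsq nsq_nonneg)
open Vale.Agent.P141.H43.Seam (WQ MQ)
open Vale.Agent.P141.H795 (ys)
open Vale.Agent.P141.H550.CrZ (PN)
open Vale.Agent.P141.H186.PS (PartS)
open Vale.Agent.P141.H277.Phi (PhiZ MM HH tS Cz)
open Vale.Agent.P141.H639.NumL (tS_sq lm_MM cap_HH64)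

noncomputable section

open scoped Classical

theorem ch_smul {κ : Type} [Fintype κ] [DecidableEq κ] {w : ℝ} (hw : w ≠ 0)
    (c : ℕ → ℤ → ℤ → κ → ℝ) (k : ℕ) (n m : ℤ) :
    Ch (fun k x z => w • c k x z) k n m ↔ Ch c k n m := by
  constructor
  · rintro ⟨x, hx, z, hz, h⟩
    exact ⟨x, hx, z, hz, fun e => h (by
      show w • c (k + 1) x z = w • c k x z
      rw [e])⟩
  · rintro ⟨x, hx, z, hz, h⟩
    exact ⟨x, hx, z, hz, fun e => h (smul_right_injective _ hw e)⟩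

theorem numA_smul {κ : Type} [Fintype κ] [DecidableEq κ] {w : ℝ} (hw : w ≠ 0) {k₀ N : ℕ}
    {r1 r2 r3 : ℤ} {pl : ℕ → ℤ} {A : ℕ → ℤ → ℤ → ℝ} {c : ℕ → ℤ → ℤ → κ → ℝ} {t2 EA : ℝ}
    (h : NumA k₀ N r1 r2 r3 pl A c t2 EA) :
    NumA k₀ N r1 r2 r3 pl A (fun k x z => w • c k x z) t2 EA where
  cap := h.cap
  en := h.en
  born := h.born
  cr := by
    refine le_trans (le_of_eq ?_) h.cr
    refine sum_congr rfl fun k _ => ?_
    congr 1
    funext n2 n1 m
    exact if_congr (ch_smul hw c k n1 m) rfl rfl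

/-- **`PhiZ` for every slot.** -/
theorem phi_z : PartS H636.FDU PhiZ := by
  refine H675.PX.PartS.of_slot
    (fun q => 64 + 8 * 70000 + 12 * (PN q.cP + q.cP + 10) + 49 * q.CD * (q.cP + 3)) ?_
  intro ι _ _ q n ez F1 F2 F3 o K x s r U g u v A b C R κ E h j e _ _ _ _ _ _ hk3 _ hc0 _
    hd0 hd1 _ _ hcP _ hCD ht ht1 _ _ _ ho hK hs hr hcls hD hκ _ _ hS _ hj _
  intro hez m N0 hm hm1 hN0 hN t' ht' Lb eb hinj hmem
  obtain ⟨Q1, Q2, Q3, v', hF⟩ := hD.2.2
  have hPN : 0 ≤ PN q.cP := by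
    unfold H550.CrZ.PN
    positivity
  set Y : ℝ := 64 + 8 * 70000 + 12 * (PN q.cP + q.cP + 10) + 49 * q.CD * (q.cP + 3) with hY
  have hXY : Y ≤ max 1 ((fun q : H401.Num => 64 + 8 * 70000 + 12 * (PN q.cP + q.cP + 10) +
      49 * q.CD * (q.cP + 3)) (H675.PX.wot q)) := le_max_right _ _
  set X : ℝ := max 1 ((fun q : H401.Num => 64 + 8 * 70000 + 12 * (PN q.cP + q.cP + 10) +
      49 * q.CD * (q.cP + 3)) (H675.PX.wot q)) with hX
  clear_value X
  have hCD0 : 0 ≤ 49 * q.CD * (q.cP + 3) := by positivity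
  have hX64 : 64 ≤ X := by linarith
  have hXK : 8 * 70000 ≤ X := by linarith
  have hXP : 12 * (PN q.cP + q.cP + 10) ≤ X := by linarith
  have hXC : 49 * q.CD * (q.cP + 3) ≤ X := by linarith
  clear_value Y
  have hsym : ∀ x0 z x, (R x0 0 z x)ᵀ = R x0 0 z x := fun x0 z x => hS.symm x0 0 (Nat.zero_le K) z x
  have hcap : ∀ x0 z x w, nsq (R x0 0 z x *ᵥ w) ≤ κ ^ 2 * nsq w :=
    fun x0 z x w => hS.cap x0 0 (Nat.zero_le K) z x w
  have hΛ : 0 ≤ q.Lm := Real.rpow_nonneg ht.le _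
  have hsq : 0 ≤ √(q.Lm * s) := Real.sqrt_nonneg _
  have hu : 0 ≤ (m ^ (1 / 4 : ℝ)) ^ 2 := sq_nonneg _
  set cC : ℝ := √(64 * ((m ^ (1 / 4 : ℝ)) ^ 2 + κ ^ 2) * √(q.Lm * s)) with hcC
  have hcC2 : cC ^ 2 = 64 * ((m ^ (1 / 4 : ℝ)) ^ 2 + κ ^ 2) * √(q.Lm * s) :=
    Real.sq_sqrt (by positivity)
  have hcap16 : 16 * (1 + κ ^ 2) * √(q.Lm * s) ≤ cC ^ 2 := by
    rw [hcC2]
    refine mul_le_mul_of_nonneg_right ?_ hsq
    nlinarith
  obtain ⟨En, n0, n1, n2⟩ := num_phi hF hcls.toCls ht ht1 hc0 hd0.le hez hs.le hr hcP hK ho hj h e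
    hκ hm hm1 hN0 hN hsym hcap hcap16
  have hB : 0 ≤ q.CD * (q.Lm * s) := by positivity
  obtain ⟨EA, a0, a1, a2⟩ := H900.Num.numA_TF hF hK hB h j
  have hMM : q.Lm * s * 8 ^ K ≤ MM q s r κ K := lm_MM ht ht1 hc0 hd0.le hs.le hr hκ K
  have hMM0 : 0 ≤ MM q s r κ K := le_trans (by positivity) hMM
  have hth : 0 < q.th s r := by
    unfold H401.Num.th
    have := Real.rpow_pos_of_pos ht (1 - q.k3)
    have := Real.rpow_pos_of_pos hs (1 / 4)
    have := Real.rpow_pos_of_pos (show 0 < r by linarith) q.k3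
    positivity
  have hτ2 : tS q s r ^ 2 = 4 * q.th s r ^ 2 := tS_sq s r
  have hτ : 0 < tS q s r := by
    unfold H277.Phi.tS
    exact Real.sqrt_pos.2 (by positivity)
  have hH1 : 1 ≤ HH q r κ X := H277.Phi.HH_one ht ht1 hr hκ (by linarith)
  have hcl : cC ^ 2 ≤ HH q r κ X * tS q s r ^ 2 := by
    rw [hcC2]
    exact cap_HH64 ht ht1 hr hs.le hk3.le (by linarith) hκ hm.le hm1 hX64
  have hw : (√ez)⁻¹ ≠ 0 := inv_ne_zero (Real.sqrt_pos.2 hez).ne'
  refine ⟨∑ x0 ∈ iv K t', En x0, ∑ x0 ∈ iv K t', EA x0, sum_nonneg fun x0 _ => n0 x0,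
    sum_nonneg fun x0 _ => a0 x0, ?_, ?_, fun z hz => ?_⟩
  · have h1 : ∑ x0 ∈ iv K t', En x0 ≤ ∑ t ∈ rt (cx K x), ∑ x0 ∈ iv K t, En x0 :=
      single_le_sum (f := fun t => ∑ x0 ∈ iv K t, En x0)
        (fun t _ => sum_nonneg fun x0 _ => n0 x0) ht'
    refine (h1.trans n1).trans ?_
    refine mul_le_mul_of_nonneg_right ?_ (Real.sqrt_nonneg _)
    exact mul_le_mul_of_nonneg_right hXP (by linarith)
  · refine (a2 t').trans ?_
    have h1 : 49 * (q.CD * (q.Lm * s)) * (q.cP + 3) * 8 ^ K =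
        49 * q.CD * (q.cP + 3) * (q.Lm * s * 8 ^ K) := by ring
    rw [h1]
    refine (mul_le_mul_of_nonneg_left hMM hCD0).trans ?_
    refine (mul_le_mul_of_nonneg_right hXC hMM0).trans ?_
    refine mul_le_mul_of_nonneg_left ?_ (by linarith)
    linarith
  · have hNA : ∀ x0 ∈ iv K t', NumA 0 K ((cx K x).1 - e.1) ((cx K x).2.1 - e.2.1)
        ((cx K x).2.2 - e.2.2) (fun k => ix k (ys (-x0) h) - j)
        (fun k y z => shA K (cx K x) h (A x0) (min k K) z y)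
        (fun k x' z => (√ez)⁻¹ • shC K (cx K x) h (C x0) (min k K) z x') (tS q s r ^ 2)
        (EA x0) := by
      intro x0 _
      rw [hτ2]
      exact numA_smul hw (a1 x0 _ _ _)
    have key := H863.phiZ_core (L := Lb) (e := eb) (K := K) (M := cx K x) (R := R) (A := A)
      (b := b) (C := C) H170.PairT.pairACr (by norm_num) (w := (√ez)⁻¹) hm hm1 hτ hH1 h hj e t'
      (fun x0 _ => hsym x0) (fun x0 _ => n0 x0) (fun x0 _ => a0 x0) hcl
      (fun x0 hx0 => n2 t' ht' x0 hx0) hNA hinj hmem z hz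
    refine key.trans (mul_le_mul_of_nonneg_left ?_ (by positivity))
    have hlog : 0 ≤ (1 + Real.log (HH q r κ X / m)) ^ 3 := by
      have h1 : 1 ≤ HH q r κ X / m := by
        rw [le_div_iff₀ hm]
        linarith
      have := Real.log_nonneg h1
      positivity
    refine mul_le_mul_of_nonneg_right (mul_le_mul_of_nonneg_right hXK hlog) ?_
    exact add_nonneg (Real.sqrt_nonneg _)
      (mul_nonneg (sq_nonneg _) (sum_nonneg fun x0 _ => n0 x0))

end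

end Vale.Agent.P141.H811
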